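import Vale.Agent.P336.H742.Decode
import Vale.Agent.P336.H887.Seed

/-!
# P336: the correlation bound from the chain expansion and a good seed
-/

set_option linter.unusedSectionVars false

namespace Vale.Agent.P336.H742

open Finset Vale.Agent.P336.Expansion Vale.Agent.P336.Moment

noncomputable section

section general

variable {W : Type} [Fintype W] [DecidableEq W]

/-- A finite set of clauses can be numbered. -/
theorem val_range (C : ℕ → Cl W) (I : Finset ℕ) {t : ℕ} (hC : ∀ i ∈ I, (C i).S.card ≤ t) :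
    ∃ (M : ℕ) (C' : ℕ → Cl W), (∀ i < M, (C' i).S.card ≤ t) ∧
      ∀ (h : (W → Bool) → ℝ) (J : Finset W) (y : W → Bool),
        val h C J y I = val h C' J y (range M) := by
  classical
  let e := I.equivFin
  refine ⟨I.card, fun j => if hj : j < I.card then C (e.symm ⟨j, hj⟩ : I).1 else
    ⟨∅, fun _ => false⟩, fun i hi => ?_, fun h J y => ?_⟩
  · simp only [dif_pos hi]
    exact hC _ (e.symm ⟨i, hi⟩).2
  · refine sum_congr rfl fun z _ => ?_
    congr 1
    rw [← prod_coe_sort I, prod_range, ← e.symm.prod_comp]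
    refine prod_congr rfl fun i _ => ?_
    simp only [dif_pos i.2]

/-- The sparse sums are sums over members of the family `FF`. -/
theorem val_le_of_good {t K : ℕ} {h : (W → Bool) → ℝ} {Lam : Finset W → ℝ}
    (hgood : ∀ p ∈ FF W t K, |∑ z ∈ p.2, h z| ≤ Lam p.1) (C : ℕ → Cl W) (A : Finset W)
    (x : W → Bool) (P : Finset ℕ) (hC : ∀ i ∈ P, (C i).S.card ≤ t) (hP : P.card ≤ K) :
    |val h C A x P| ≤ Lam A := by
  classical
  have h1 : val h C A x P = ∑ z ∈ satSet (P.toList.map C) A x, h z := by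
    rw [← sum_satSet]
    refine sum_congr rfl fun z _ => ?_
    rw [List.map_map, ← Finset.prod_map_toList]
    rfl
  rw [h1]
  refine hgood _ (mem_FF (P.toList.map C) (by simpa using hP) (fun c hc => ?_) A x)
  obtain ⟨i, hi, rfl⟩ := List.mem_map.1 hc
  exact hC i (by simpa using hi)

theorem sum_superset (A : Finset W) (q : ℝ) :
    ∑ J ∈ univ.filter (fun J : Finset W => A ⊆ J), q ^ J.card =
      q ^ A.card * (1 + q) ^ (Fintype.card W - A.card) := by
  classical
  have h1 : ∑ J ∈ univ.filter (fun J : Finset W => A ⊆ J), q ^ J.card =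
      ∑ B ∈ (Aᶜ).powerset, q ^ A.card * q ^ B.card := by
    refine sum_bij' (fun J _ => J \ A) (fun B _ => A ∪ B) ?_ ?_ ?_ ?_ ?_
    · intro J _
      rw [mem_powerset]
      intro v hv
      rw [mem_compl]
      exact (mem_sdiff.1 hv).2
    · intro B _
      rw [mem_filter]
      exact ⟨mem_univ _, subset_union_left⟩
    · intro J hJ
      exact union_sdiff_of_subset (mem_filter.1 hJ).2
    · intro B hB
      rw [mem_powerset] at hB
      refine union_sdiff_cancel_left ?_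
      rw [disjoint_left]
      intro v hv hvB
      exact (mem_compl.1 (hB hvB)) hv
    · intro J hJ
      rw [← pow_add]
      congr 1
      have := card_sdiff_add_card_eq_card (mem_filter.1 hJ).2
      omega
  rw [h1, ← mul_sum]
  congr 1
  have h2 := Finset.sum_pow_mul_eq_add_pow q 1 Aᶜ
  simp only [one_pow, mul_one] at h2
  rw [h2, add_comm, card_compl]

/-- The average of the bounds `BB`. -/
theorem sum_BB (t s D : ℕ) (θ : ℝ) (Lam : Finset W → ℝ) :
    ∑ J : Finset W, (1 / 2 : ℝ) ^ J.card * BB t s D θ Lam J =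
      2 ^ (t * s) * (3 / 2) ^ Fintype.card W * ∑ A : Finset W, (1 / 6 : ℝ) ^ A.card * Lam A +
        (2 * θ ^ D + (1 / 2) ^ (t * s)) * 2 ^ Fintype.card W := by
  classical
  have h1 : ∀ J : Finset W, (1 / 2 : ℝ) ^ J.card * BB t s D θ Lam J =
      2 ^ (t * s) * ∑ A ∈ J.powerset, (1 / 2 : ℝ) ^ J.card * ((1 / 2 : ℝ) ^ A.card * Lam A) +
        (2 * θ ^ D + (1 / 2) ^ (t * s)) := by
    intro J
    have h2 : (1 / 2 : ℝ) ^ J.card * 2 ^ J.card = 1 := by
      rw [← mul_pow]; norm_num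
    rw [BB, ← mul_sum]
    calc _ = 2 ^ (t * s) * ((1 / 2 : ℝ) ^ J.card *
          ∑ A ∈ J.powerset, (1 / 2 : ℝ) ^ A.card * Lam A) +
          (2 * θ ^ D + (1 / 2) ^ (t * s)) * ((1 / 2 : ℝ) ^ J.card * 2 ^ J.card) := by ring
      _ = _ := by rw [h2, mul_one]
  rw [sum_congr rfl fun J _ => h1 J, sum_add_distrib, ← mul_sum, sum_const, card_univ,
    Fintype.card_finset, nsmul_eq_mul]
  congr 1
  · rw [mul_assoc]
    congr 1
    have h2 : ∑ J : Finset W, ∑ A ∈ J.powerset,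
        (1 / 2 : ℝ) ^ J.card * ((1 / 2 : ℝ) ^ A.card * Lam A) =
        ∑ A : Finset W, ∑ J ∈ univ.filter (fun J : Finset W => A ⊆ J),
          (1 / 2 : ℝ) ^ J.card * ((1 / 2 : ℝ) ^ A.card * Lam A) := by
      refine sum_comm' fun J A => ?_
      simp
    rw [h2, mul_sum]
    refine sum_congr rfl fun A _ => ?_
    rw [← sum_mul, sum_superset]
    have h3 : A.card ≤ Fintype.card W := card_le_univ A
    have h4 : ((3 : ℝ) / 2) ^ Fintype.card W = (1 + 1 / 2) ^ (Fintype.card W - A.card) *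
        (3 / 2) ^ A.card := by
      rw [show (1 : ℝ) + 1 / 2 = 3 / 2 by norm_num, ← pow_add, Nat.sub_add_cancel h3]
    have h5 : ((1 : ℝ) / 2) ^ A.card * (1 / 2) ^ A.card = (3 / 2) ^ A.card * (1 / 6) ^ A.card := by
      rw [← mul_pow, ← mul_pow]; norm_num
    rw [h4]
    calc _ = (((1 : ℝ) / 2) ^ A.card * (1 / 2) ^ A.card) *
          ((1 + 1 / 2) ^ (Fintype.card W - A.card) * Lam A) := by ring
      _ = _ := by rw [h5]; ring
  · push_cast
    ring

/-- **Correlation bound** for all CNFs of width `≤ k` on `W × Fin b`. -/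
theorem corr_of_good {t K b k s : ℕ} (ht : 1 ≤ t) (hb : 0 < b) (hk : 12 * k ≤ b * t)
    (h : (W → Bool) → ℝ) (hh : ∀ z, |h z| ≤ 1) (Lam : Finset W → ℝ)
    (hgood : ∀ p ∈ FF W t K, |∑ z ∈ p.2, h z| ≤ Lam p.1)
    {θ : ℝ} (h0 : 0 < θ) (h1 : θ ≤ 1) (hη : (1 - θ) * 3 ^ t ≤ (1 / 2) ^ t)
    {δ : ℝ} (hδ : 2 * (2 ^ (t * s) * (3 / 4) ^ Fintype.card W *
      ∑ A : Finset W, (1 / 6 : ℝ) ^ A.card * Lam A + (2 * θ ^ K + (1 / 2) ^ (t * s))) ≤ δ) :
    Corr (fun x : W × Fin b → Bool => h (yv parity x)) k δ := by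
  intro M C hC
  have h2 := correlation hb ht hk C hC parity parity_flip h (BB t s K θ Lam)
    (fun J y₀ I C' hI => by
      obtain ⟨M', C'', hC'', hv⟩ := val_range C' I hI
      rw [hv h J y₀]
      refine narrow_avg hh C'' t K ht M' hC'' h0 h1 hη (fun A x P hP hPK => ?_) s J y₀
      exact val_le_of_good hgood C'' A x P (fun i hi => hC'' i (mem_range.1 (hP hi))) hPK)
  refine h2.trans ?_
  rw [Fintype.card_prod, Fintype.card_fin, sum_BB]
  have h3 : ((3 : ℝ) / 2) ^ Fintype.card W / 2 ^ Fintype.card W = (3 / 4) ^ Fintype.card W := by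
    rw [← div_pow]; norm_num
  have h4 : (2 : ℝ) ^ Fintype.card W ≠ 0 := by positivity
  calc 2 * 2 ^ (Fintype.card W * b) / 2 ^ Fintype.card W *
        (2 ^ (t * s) * (3 / 2) ^ Fintype.card W * ∑ A : Finset W, (1 / 6 : ℝ) ^ A.card * Lam A +
        (2 * θ ^ K + (1 / 2) ^ (t * s)) * 2 ^ Fintype.card W)
      = (2 * (2 ^ (t * s) * (((3 : ℝ) / 2) ^ Fintype.card W / 2 ^ Fintype.card W) *
      ∑ A : Finset W, (1 / 6 : ℝ) ^ A.card * Lam A + (2 * θ ^ K + (1 / 2) ^ (t * s)))) *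
          2 ^ (Fintype.card W * b) := by field_simp
    _ ≤ δ * 2 ^ (Fintype.card W * b) := by
        rw [h3]
        gcongr

end general

variable {G U : Type} [Fintype G] [DecidableEq G] [Fintype U] [DecidableEq U]

theorem sum_pow_card (X : Type) [Fintype X] [DecidableEq X] (q : ℝ) :
    ∑ P : Finset X, q ^ P.card = (1 + q) ^ Fintype.card X := by
  have h := Finset.sum_pow_mul_eq_add_pow q 1 (univ : Finset X)
  rw [powerset_univ] at h
  simp only [one_pow, mul_one] at h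
  rw [h, card_univ, add_comm]

theorem sixth_max_le (p q : ℕ) :
    (1 / 6 : ℝ) ^ (p + q) * 2 ^ max p q ≤
      (1 / 3) ^ p * (1 / 6) ^ q + (1 / 6) ^ p * (1 / 3) ^ q := by
  have h0 : ∀ n : ℕ, (1 / 6 : ℝ) ^ n * 2 ^ n = (1 / 3) ^ n := fun n => by
    rw [← mul_pow]; norm_num
  have hp : (0 : ℝ) < (1 / 3) ^ p * (1 / 6) ^ q := by positivity
  have hq : (0 : ℝ) < (1 / 6) ^ p * (1 / 3) ^ q := by positivity
  rcases le_total p q with h | h
  · rw [max_eq_right h, pow_add, mul_assoc, h0]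
    linarith
  · rw [max_eq_left h, pow_add, mul_right_comm, h0]
    linarith

/-- **Average over the alive sets**. -/
theorem sum_mx_le :
    ∑ J : Finset (G × (U ⊕ U)), (1 / 6 : ℝ) ^ J.card * 2 ^ mx J ≤
      (2 * (14 / 9) ^ Fintype.card U) ^ Fintype.card G := by
  have h1 : ∀ J : Finset (G × (U ⊕ U)), (1 / 6 : ℝ) ^ J.card * 2 ^ mx J ≤
      ∏ i, ((1 / 3 : ℝ) ^ ((splitE J i).1).card * (1 / 6) ^ ((splitE J i).2).card +
        (1 / 6) ^ ((splitE J i).1).card * (1 / 3) ^ ((splitE J i).2).card) := by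
    intro J
    rw [card_eq_sum, mx, ← prod_pow_eq_pow_sum, ← prod_pow_eq_pow_sum, ← prod_mul_distrib]
    exact prod_le_prod (fun _ _ => by positivity) fun i _ => sixth_max_le _ _
  refine (sum_le_sum fun J _ => h1 J).trans (le_of_eq ?_)
  rw [splitE.sum_comp fun c : G → Finset U × Finset U =>
    ∏ i, ((1 / 3 : ℝ) ^ ((c i).1).card * (1 / 6) ^ ((c i).2).card +
        (1 / 6) ^ ((c i).1).card * (1 / 3) ^ ((c i).2).card)]
  have h2 := Finset.prod_univ_sum (fun _ : G => (univ : Finset (Finset U × Finset U)))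
    (fun _ c => ((1 / 3 : ℝ) ^ (c.1).card * (1 / 6) ^ (c.2).card +
        (1 / 6) ^ (c.1).card * (1 / 3) ^ (c.2).card))
  rw [Fintype.piFinset_univ] at h2
  rw [← h2, prod_const, card_univ]
  congr 1
  rw [Fintype.sum_prod_type]
  simp only [sum_add_distrib, ← mul_sum, sum_pow_card, ← sum_mul]
  rw [← mul_pow, ← mul_pow]
  norm_num
  ring

/-- **Correlation bound for a good seed**. -/
theorem corr_seed {t K b k n Q s : ℕ} (ht : 1 ≤ t) (hb : 0 < b) (hk : 12 * k ≤ b * t)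
    (hn : Even n)
    (hcard : 4 ^ Fintype.card (G × (U ⊕ U)) *
      (1 + (1 + 2 * Fintype.card (G × (U ⊕ U))) ^ t) ^ K < 2 ^ (n * Q))
    {θ : ℝ} (h0 : 0 < θ) (h1 : θ ≤ 1) (hη : (1 - θ) * 3 ^ t ≤ (1 / 2) ^ t)
    {δ : ℝ} (hδ : 2 * (2 ^ (t * s + (Fintype.card G * n + Q) + Fintype.card G) *
      (7 / 8 : ℝ) ^ (Fintype.card G * Fintype.card U) + (2 * θ ^ K + (1 / 2) ^ (t * s))) ≤ δ) :
    ∃ a : G × U × U → Bool,
      Corr (fun x : (G × (U ⊕ U)) × Fin b → Bool => hB a (yv parity x)) k δ := by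
  obtain ⟨a, ha⟩ := good_seed n Q hn (FF (G × (U ⊕ U)) t K)
    (fun p hp => by
      obtain ⟨y, hy⟩ := FF_agree hp
      exact ⟨y, fun z hz v hv => mem_cube.1 (hy hz) v hv⟩)
    (lt_of_le_of_lt (card_FF t K) hcard)
  have hh : ∀ z, |hB a z| ≤ 1 := by
    intro z
    rw [Moment.hB_eq]
    split_ifs <;> norm_num
  refine ⟨a, corr_of_good (s := s) ht hb hk (hB a) hh
    (fun J => 2 ^ (mx J + Fintype.card G * n + Q)) ha h0 h1 hη (le_trans ?_ hδ)⟩
  have h2 : ∑ J : Finset (G × (U ⊕ U)), (1 / 6 : ℝ) ^ J.card *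
      2 ^ (mx J + Fintype.card G * n + Q) = 2 ^ (Fintype.card G * n + Q) *
      ∑ J : Finset (G × (U ⊕ U)), (1 / 6 : ℝ) ^ J.card * 2 ^ mx J := by
    rw [mul_sum]
    refine sum_congr rfl fun J _ => ?_
    rw [add_assoc, pow_add]
    ring
  rw [h2]
  have h3 := sum_mx_le (G := G) (U := U)
  have h4 : ((3 : ℝ) / 4) ^ Fintype.card (G × (U ⊕ U)) =
      (9 / 16) ^ (Fintype.card G * Fintype.card U) := by
    rw [Fintype.card_prod, Fintype.card_sum, show (9 : ℝ) / 16 = (3 / 4) ^ 2 by norm_num, ← pow_mul]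
    congr 1
    ring
  rw [h4]
  gcongr 2 * (?_ + _)
  calc 2 ^ (t * s) * (9 / 16 : ℝ) ^ (Fintype.card G * Fintype.card U) *
        (2 ^ (Fintype.card G * n + Q) *
          ∑ J : Finset (G × (U ⊕ U)), (1 / 6 : ℝ) ^ J.card * 2 ^ mx J)
      ≤ 2 ^ (t * s) * (9 / 16 : ℝ) ^ (Fintype.card G * Fintype.card U) *
        (2 ^ (Fintype.card G * n + Q) *
          (2 * (14 / 9) ^ Fintype.card U) ^ Fintype.card G) := by
        gcongr
    _ = 2 ^ (t * s + (Fintype.card G * n + Q) + Fintype.card G) *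
      (7 / 8 : ℝ) ^ (Fintype.card G * Fintype.card U) := by
        rw [mul_pow, ← pow_mul, mul_comm (Fintype.card U), pow_add _ _ (Fintype.card G),
          pow_add _ _ (Fintype.card G * n + Q),
          show (7 : ℝ) / 8 = 9 / 16 * (14 / 9) by norm_num, mul_pow]
        ring

end

end Vale.Agent.P336.H742
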