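import Vale.Agent.P336.H742.Stage2
import Vale.Agent.P336.H567.Block

/-!
# P336: summation of the chain expansion over all sub-restrictions
-/

set_option linter.unusedSectionVars false

namespace Vale.Agent.P336.H742

open Finset Vale.Agent.P336.Expansion

noncomputable section

variable {V : Type} [Fintype V] [DecidableEq V]

/-- The sub-restrictions of the subcube `(J, y)`, in canonical form. -/
def Rs (J : Finset V) (y : V → Bool) : Finset (Finset V × (V → Bool)) :=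
  univ.filter fun p => p.1 ⊆ J ∧ (∀ v ∈ p.1, p.2 v = false) ∧ ∀ v, v ∉ J → p.2 v = y v

theorem mem_Rs {J : Finset V} {y : V → Bool} {p : Finset V × (V → Bool)} :
    p ∈ Rs J y ↔ p.1 ⊆ J ∧ (∀ v ∈ p.1, p.2 v = false) ∧ ∀ v, v ∉ J → p.2 v = y v := by
  simp [Rs]

theorem next_mem_Rs {J : Finset V} {y : V → Bool} {p : Finset V × (V → Bool)} (hp : p ∈ Rs J y)
    (C : Cl V) : (nA C p.1, nx C p.1 p.2) ∈ Rs J y := by
  rw [mem_Rs] at hp ⊢
  obtain ⟨h1, h2, h3⟩ := hp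
  refine ⟨sdiff_subset.trans h1, fun v hv => ?_, fun v hv => ?_⟩
  · simp only [nA, mem_sdiff] at hv
    simp only [nx, mem_inter, hv.1, hv.2, and_false, if_false]
    exact h2 v hv.1
  · have h4 : v ∉ p.1 := fun h => hv (h1 h)
    simp only [nx, mem_inter, h4, false_and, if_false]
    exact h3 v hv

/-- **Decoding**: the children of all restrictions, with multiplicities. -/
theorem sum_children (J : Finset V) (y : V → Bool) (C : ℕ → Cl V) (M t : ℕ)
    (hC : ∀ i < M, (C i).S.card ≤ t) {w : ℝ} (hw : 0 ≤ w) (g : Finset V → (V → Bool) → ℝ)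
    (hg : ∀ A x, 0 ≤ g A x) :
    ∑ p ∈ Rs J y, w ^ p.1.card * ∑ j ∈ Ch C M p.1 p.2, g (nA (C j) p.1) (nx (C j) p.1 p.2) ≤
      (1 + w) ^ t * ∑ p ∈ Rs J y, w ^ p.1.card * g p.1 p.2 := by
  classical
  set P : Finset ((_ : Finset V × (V → Bool)) × ℕ) :=
    (Rs J y).sigma fun p => Ch C M p.1 p.2 with hP
  set Q : Finset ((_ : Finset V × (V → Bool)) × Finset V) :=
    ((Rs J y).filter fun p => R C M p.1 p.2 < M).sigma fun p =>
      (C (R C M p.1 p.2)).S.powerset with hQ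
  set Φ : ((_ : Finset V × (V → Bool)) × ℕ) → ((_ : Finset V × (V → Bool)) × Finset V) :=
    fun y => ⟨(nA (C y.2) y.1.1, nx (C y.2) y.1.1 y.1.2), y.1.1 ∩ (C y.2).S⟩ with hΦ
  set G : ((_ : Finset V × (V → Bool)) × Finset V) → ℝ :=
    fun y => w ^ y.1.1.card * w ^ y.2.card * g y.1.1 y.1.2 with hG
  have hCh : ∀ A x j, j ∈ Ch C M A x → j < R C M A x ∧ Live (C j) A x ∧
      R C M (nA (C j) A) (nx (C j) A x) = j := by
    intro A x j hj
    simpa only [Ch, mem_filter, mem_range] using hj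
  have hmap : ∀ z ∈ P, Φ z ∈ Q := by
    rintro ⟨⟨A, x⟩, s⟩ hz
    rw [hP, mem_sigma] at hz
    obtain ⟨hy1, hy2⟩ := hz
    obtain ⟨hsR, hw, hR⟩ := hCh _ _ _ hy2
    rw [hQ, mem_sigma, mem_filter]
    refine ⟨⟨next_mem_Rs hy1 _, ?_⟩, ?_⟩
    · change R C M (nA (C s) A) (nx (C s) A x) < M
      rw [hR]; exact hsR.trans_le (R_le _ _ _ _)
    · change A ∩ (C s).S ∈ (C (R C M (nA (C s) A) (nx (C s) A x))).S.powerset
      rw [hR, mem_powerset]
      exact inter_subset_right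
  have hinj : ∀ z ∈ P, ∀ z' ∈ P, Φ z = Φ z' → z = z' := by
    rintro ⟨⟨A, x⟩, s⟩ hz ⟨⟨A', x'⟩, s'⟩ hz' heq
    rw [hP, mem_sigma] at hz hz'
    obtain ⟨hy1, hy2⟩ := hz
    obtain ⟨hy1', hy2'⟩ := hz'
    have e1 := (hCh _ _ _ hy2).2.2
    have e2 := (hCh _ _ _ hy2').2.2
    simp only [hΦ, Sigma.mk.injEq, Prod.mk.injEq, heq_eq_eq] at heq
    obtain ⟨⟨h1, h2⟩, h3⟩ := heq
    have hs : s = s' := by
      simp only at e1 e2
      rw [← e1, ← e2, h1, h2]
    subst hs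
    have hA : A = A' := by
      rw [← sdiff_union_inter A (C s).S, ← sdiff_union_inter A' (C s).S, h3]
      congr 1
    subst hA
    have hx : x = x' := by
      funext v
      by_cases hv : v ∈ A
      · exact ((mem_Rs.1 hy1).2.1 v hv).trans ((mem_Rs.1 hy1').2.1 v hv).symm
      · have h4 := congrFun h2 v
        simpa [nx, hv] using h4
    rw [hx]
  have hval : ∀ z ∈ P, w ^ z.1.1.card * g (nA (C z.2) z.1.1) (nx (C z.2) z.1.1 z.1.2) =
      G (Φ z) := by
    rintro ⟨⟨A, x⟩, s⟩ _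
    simp only [hG, hΦ, nA]
    rw [← pow_add, card_sdiff_add_card_inter]
  have hnn : ∀ z ∈ Q, 0 ≤ G z := fun z _ =>
    mul_nonneg (mul_nonneg (pow_nonneg hw _) (pow_nonneg hw _)) (hg _ _)
  calc ∑ p ∈ Rs J y, w ^ p.1.card * ∑ j ∈ Ch C M p.1 p.2, g (nA (C j) p.1) (nx (C j) p.1 p.2)
      = ∑ z ∈ P, w ^ z.1.1.card * g (nA (C z.2) z.1.1) (nx (C z.2) z.1.1 z.1.2) := by
        rw [hP, sum_sigma]
        exact sum_congr rfl fun p _ => mul_sum _ _ _
    _ = ∑ z ∈ P, G (Φ z) := sum_congr rfl hval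
    _ = ∑ z ∈ P.image Φ, G z := (sum_image fun z hz z' hz' h => hinj z hz z' hz' h).symm
    _ ≤ ∑ z ∈ Q, G z := by
        refine sum_le_sum_of_subset_of_nonneg (fun z hz => ?_) fun z hz _ => hnn z hz
        obtain ⟨z', hz', rfl⟩ := mem_image.1 hz
        exact hmap z' hz'
    _ = ∑ p ∈ (Rs J y).filter (fun p => R C M p.1 p.2 < M),
          ∑ D ∈ (C (R C M p.1 p.2)).S.powerset,
            w ^ p.1.card * w ^ D.card * g p.1 p.2 := by
        rw [hQ, sum_sigma]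
    _ ≤ ∑ p ∈ (Rs J y).filter (fun p => R C M p.1 p.2 < M),
          (1 + w) ^ t * (w ^ p.1.card * g p.1 p.2) := by
        refine sum_le_sum fun p hp => ?_
        have h3 := hC _ (mem_filter.1 hp).2
        have h4 : ∑ D ∈ (C (R C M p.1 p.2)).S.powerset,
            w ^ p.1.card * w ^ D.card * g p.1 p.2 =
            (∑ D ∈ (C (R C M p.1 p.2)).S.powerset, w ^ D.card) *
              (w ^ p.1.card * g p.1 p.2) := by
          rw [sum_mul]
          exact sum_congr rfl fun D _ => by ring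
        have h5 : ∑ D ∈ (C (R C M p.1 p.2)).S.powerset, w ^ D.card =
            (1 + w) ^ (C (R C M p.1 p.2)).S.card := by
          have h6 := Finset.sum_pow_mul_eq_add_pow w 1 (C (R C M p.1 p.2)).S
          simp only [one_pow, mul_one] at h6
          rw [h6, add_comm]
        rw [h4, h5]
        refine mul_le_mul_of_nonneg_right ?_ (mul_nonneg (pow_nonneg hw _) (hg _ _))
        exact pow_le_pow_right₀ (by linarith) h3
    _ ≤ ∑ p ∈ Rs J y, (1 + w) ^ t * (w ^ p.1.card * g p.1 p.2) :=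
        sum_le_sum_of_subset_of_nonneg (filter_subset _ _) fun p _ _ =>
          mul_nonneg (by positivity) (mul_nonneg (pow_nonneg hw _) (hg _ _))
    _ = _ := by rw [mul_sum]

theorem sum_EE_le (J : Finset V) (y : V → Bool) (C : ℕ → Cl V) (M t : ℕ) (ht : 1 ≤ t)
    (hC : ∀ i < M, (C i).S.card ≤ t) {ε : Finset V → ℝ} (hε : ∀ A, 0 ≤ ε A) (s : ℕ) :
    ∑ p ∈ Rs J y, EE C M ε s p.1 p.2 ≤ (2 ^ (t * s) - 1) * ∑ p ∈ Rs J y, ε p.1 := by
  induction s with
  | zero => simp [EE]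
  | succ s ih =>
    have h1 := sum_children J y C M t hC (w := 1) zero_le_one (EE C M ε s) (EE_nonneg C M hε s)
    simp only [one_pow, one_mul] at h1
    have h2 : ∑ p ∈ Rs J y, EE C M ε (s + 1) p.1 p.2 = ∑ p ∈ Rs J y, ε p.1 +
        ∑ p ∈ Rs J y, ∑ j ∈ Ch C M p.1 p.2,
          EE C M ε s (nA (C j) p.1) (nx (C j) p.1 p.2) := by
      rw [← sum_add_distrib]
      rfl
    have h3 : (0 : ℝ) ≤ ∑ p ∈ Rs J y, ε p.1 := sum_nonneg fun p _ => hε _
    have h4 : (2 : ℝ) ≤ 2 ^ t := by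
      calc (2 : ℝ) = 2 ^ 1 := by norm_num
        _ ≤ 2 ^ t := pow_le_pow_right₀ (by norm_num) ht
    rw [h2]
    norm_num at h1
    calc _ ≤ ∑ p ∈ Rs J y, ε p.1 + 2 ^ t * ((2 ^ (t * s) - 1) * ∑ p ∈ Rs J y, ε p.1) := by
          refine add_le_add_right (h1.trans ?_) _
          exact mul_le_mul_of_nonneg_left ih (by positivity)
      _ = (1 + 2 ^ (t * (s + 1)) - 2 ^ t) * ∑ p ∈ Rs J y, ε p.1 := by
          rw [mul_add t s 1, mul_one, pow_add]
          ring
      _ ≤ (2 ^ (t * (s + 1)) - 1) * ∑ p ∈ Rs J y, ε p.1 := by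
          refine mul_le_mul_of_nonneg_right ?_ h3
          linarith

theorem sum_GG_le (J : Finset V) (y : V → Bool) (C : ℕ → Cl V) (M t D : ℕ) (ht : 1 ≤ t)
    (hC : ∀ i < M, (C i).S.card ≤ t) {θ : ℝ} (h0 : 0 ≤ θ) (h1 : θ ≤ 1)
    (hη : (1 - θ) * 3 ^ t ≤ (1 / 2) ^ t) (s : ℕ) :
    ∑ p ∈ Rs J y, 2 ^ p.1.card * GG C M D θ s p.1 p.2 ≤
      (2 * θ ^ D + (1 / 2) ^ (t * s)) * ∑ p ∈ Rs J y, 2 ^ p.1.card := by
  have hX : (0 : ℝ) ≤ ∑ p ∈ Rs J y, 2 ^ p.1.card := sum_nonneg fun p _ => by positivity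
  have hθD : 0 ≤ θ ^ D := pow_nonneg h0 _
  induction s with
  | zero =>
    simp only [GG, mul_one, mul_zero, pow_zero]
    nlinarith
  | succ s ih =>
    have h2 := sum_children J y C M t hC (w := 2) (by norm_num) (GG C M D θ s)
      (GG_nonneg C M D h0 h1 s)
    have h3 : ∑ p ∈ Rs J y, 2 ^ p.1.card * GG C M D θ (s + 1) p.1 p.2 =
        θ ^ D * ∑ p ∈ Rs J y, 2 ^ p.1.card +
        (1 - θ) * ∑ p ∈ Rs J y, 2 ^ p.1.card * ∑ j ∈ Ch C M p.1 p.2,
          GG C M D θ s (nA (C j) p.1) (nx (C j) p.1 p.2) := by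
      rw [mul_sum, mul_sum, ← sum_add_distrib]
      refine sum_congr rfl fun p _ => ?_
      simp only [GG]
      ring
    have h4 : (1 / 2 : ℝ) ^ t ≤ 1 / 2 := by
      calc (1 / 2 : ℝ) ^ t ≤ (1 / 2) ^ 1 := pow_le_pow_of_le_one (by norm_num) (by norm_num) ht
        _ = 1 / 2 := by norm_num
    have h5 : (0 : ℝ) ≤ (1 / 2) ^ t := by positivity
    have h6 : (0 : ℝ) ≤ (1 / 2) ^ (t * s) := by positivity
    have h7 : (0 : ℝ) ≤ (2 * θ ^ D + (1 / 2) ^ (t * s)) * ∑ p ∈ Rs J y, 2 ^ p.1.card :=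
      mul_nonneg (by linarith) hX
    norm_num at h2
    rw [h3]
    calc _ ≤ θ ^ D * ∑ p ∈ Rs J y, 2 ^ p.1.card + (1 - θ) * (3 ^ t *
          ((2 * θ ^ D + (1 / 2) ^ (t * s)) * ∑ p ∈ Rs J y, 2 ^ p.1.card)) := by
          refine add_le_add_right (mul_le_mul_of_nonneg_left ?_ (by linarith)) _
          exact h2.trans (mul_le_mul_of_nonneg_left ih (by positivity))
      _ = θ ^ D * ∑ p ∈ Rs J y, 2 ^ p.1.card + ((1 - θ) * 3 ^ t) *
          ((2 * θ ^ D + (1 / 2) ^ (t * s)) * ∑ p ∈ Rs J y, 2 ^ p.1.card) := by ring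
      _ ≤ θ ^ D * ∑ p ∈ Rs J y, 2 ^ p.1.card + (1 / 2) ^ t *
          ((2 * θ ^ D + (1 / 2) ^ (t * s)) * ∑ p ∈ Rs J y, 2 ^ p.1.card) := by
          exact add_le_add_right (mul_le_mul_of_nonneg_right hη h7) _
      _ = (θ ^ D + (1 / 2) ^ t * (2 * θ ^ D) + (1 / 2) ^ (t * (s + 1))) *
          ∑ p ∈ Rs J y, 2 ^ p.1.card := by
          rw [mul_add t s 1, mul_one, pow_add]
          ring
      _ ≤ _ := by
          refine mul_le_mul_of_nonneg_right ?_ hX
          nlinarith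

/-- The sub-restrictions, sorted by the alive set. -/
theorem sum_Rs (J : Finset V) (y : V → Bool) (f : Finset V → (V → Bool) → ℝ) :
    ∑ p ∈ Rs J y, f p.1 p.2 = ∑ A ∈ J.powerset,
      ∑ x ∈ univ.filter (fun x : V → Bool => (∀ v ∈ A, x v = false) ∧ ∀ v, v ∉ J → x v = y v),
        f A x := by
  have h1 : Rs J y = (J.powerset ×ˢ univ).filter fun p : Finset V × (V → Bool) =>
      (∀ v ∈ p.1, p.2 v = false) ∧ ∀ v, v ∉ J → p.2 v = y v := by
    ext p
    simp [mem_Rs]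
  rw [h1, sum_filter, sum_product]
  refine sum_congr rfl fun A _ => ?_
  rw [sum_filter]

/-- For each alive set, every point of the subcube lies in exactly one sub-subcube. -/
theorem sum_cubes_sub {J A : Finset V} (hA : A ⊆ J) (y : V → Bool) (g : (V → Bool) → ℝ) :
    ∑ x ∈ univ.filter (fun x : V → Bool => (∀ v ∈ A, x v = false) ∧ ∀ v, v ∉ J → x v = y v),
      ∑ z ∈ cube A x, g z = ∑ z ∈ cube J y, g z := by
  classical
  have h1 : ∀ x ∈ univ.filter (fun x : V → Bool => (∀ v ∈ A, x v = false) ∧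
      ∀ v, v ∉ J → x v = y v),
      cube A x = (cube J y).filter fun z : V → Bool =>
        (fun v => if v ∈ A then false else z v) = x := by
    intro x hx
    simp only [mem_filter, mem_univ, true_and] at hx
    ext z
    rw [mem_cube, mem_filter, mem_cube]
    constructor
    · intro h
      refine ⟨fun v hv => ?_, ?_⟩
      · rw [h v fun h' => hv (hA h'), hx.2 v hv]
      · funext v
        by_cases hv : v ∈ A
        · rw [if_pos hv, hx.1 v hv]
        · rw [if_neg hv, h v hv]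
    · rintro ⟨-, h⟩ v hv
      rw [← h]
      simp [hv]
  rw [sum_congr rfl fun x hx => by rw [h1 x hx]]
  refine sum_fiberwise_of_maps_to (fun z hz => ?_) _
  rw [mem_filter]
  refine ⟨mem_univ _, fun v hv => if_pos hv, fun v hv => ?_⟩
  exact (if_neg fun h' => hv (hA h')).trans (mem_cube.1 hz v hv)

theorem card_sub {J A : Finset V} (hA : A ⊆ J) (y : V → Bool) :
    ((univ.filter (fun x : V → Bool => (∀ v ∈ A, x v = false) ∧
      ∀ v, v ∉ J → x v = y v)).card : ℝ) * 2 ^ A.card = 2 ^ J.card := by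
  have h1 := sum_cubes_sub hA y (fun _ => 1)
  simp only [sum_const, nsmul_eq_mul, mul_one, card_cube] at h1
  exact_mod_cast h1

/-- The bound for the sub-restrictions with a given alive set. -/
def BB (t s D : ℕ) (θ : ℝ) (Lam : Finset V → ℝ) (J : Finset V) : ℝ :=
  2 ^ (t * s) * ∑ A ∈ J.powerset, (1 / 2 : ℝ) ^ A.card * Lam A +
    (2 * θ ^ D + (1 / 2) ^ (t * s)) * 2 ^ J.card

/-- **The chain expansion, summed**. -/
theorem narrow_avg {h : (V → Bool) → ℝ} (hh : ∀ z, |h z| ≤ 1) (C : ℕ → Cl V) (t D : ℕ)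
    (ht : 1 ≤ t) (M : ℕ) (hC : ∀ i < M, (C i).S.card ≤ t)
    {θ : ℝ} (h0 : 0 < θ) (h1 : θ ≤ 1) (hη : (1 - θ) * 3 ^ t ≤ (1 / 2) ^ t)
    {Lam : Finset V → ℝ}
    (hLam : ∀ (A : Finset V) (x : V → Bool) (P : Finset ℕ), P ⊆ range M → P.card ≤ D →
      |val h C A x P| ≤ Lam A) (s : ℕ) (J : Finset V) (y : V → Bool) :
    |val h C J y (range M)| ≤ BB t s D θ Lam J := by
  classical
  have hε0 : ∀ A, 0 ≤ Lam A := fun A =>
    (abs_nonneg _).trans (hLam A (fun _ => false) ∅ (empty_subset _) (by simp))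
  have hpt : ∀ p ∈ Rs J y, |val h C p.1 p.2 (range M)| ≤
      EE C M Lam s p.1 p.2 + 2 ^ p.1.card * GG C M D θ s p.1 p.2 := by
    intro p _
    have h2 := chain_bound hh C M D h0 h1 hLam s p.1 p.2 ∅ (empty_subset _)
    rw [empty_union, card_empty, pow_zero, div_one, cnt_empty] at h2
    refine le_trans ?_ h2
    rcases R_spec C M p.1 p.2 with h3 | h3
    · rw [h3]
    · by_cases hR : R C M p.1 p.2 < M
      · rw [val_eq_zero h C (mem_range.2 hR) h3, abs_zero]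
        exact abs_nonneg _
      · have h4 : R C M p.1 p.2 = M := le_antisymm (R_le _ _ _ _) (not_lt.1 hR)
        rw [h4]
  have hsum : ∑ p ∈ Rs J y, |val h C p.1 p.2 (range M)| ≤
      (2 ^ (t * s) - 1) * ∑ p ∈ Rs J y, Lam p.1 +
        (2 * θ ^ D + (1 / 2) ^ (t * s)) * ∑ p ∈ Rs J y, 2 ^ p.1.card := by
    refine (sum_le_sum hpt).trans ?_
    rw [sum_add_distrib]
    exact add_le_add (sum_EE_le J y C M t ht hC hε0 s) (sum_GG_le J y C M t D ht hC h0.le h1 hη s)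
  have hleft : 2 ^ J.card * |val h C J y (range M)| ≤
      ∑ p ∈ Rs J y, |val h C p.1 p.2 (range M)| := by
    have h2 : ∑ p ∈ Rs J y, val h C p.1 p.2 (range M) = 2 ^ J.card * val h C J y (range M) := by
      rw [sum_Rs J y fun A x => val h C A x (range M)]
      have h3 : ∀ A ∈ J.powerset, ∑ x ∈ univ.filter (fun x : V → Bool =>
          (∀ v ∈ A, x v = false) ∧ ∀ v, v ∉ J → x v = y v), val h C A x (range M) =
          val h C J y (range M) := fun A hA => sum_cubes_sub (mem_powerset.1 hA) y _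
      rw [sum_congr rfl h3, sum_const, card_powerset, nsmul_eq_mul]
      norm_cast
    rw [← abs_of_nonneg (by positivity : (0 : ℝ) ≤ 2 ^ J.card), ← abs_mul, ← h2]
    exact abs_sum_le_sum_abs _ _
  have hLamS : ∑ p ∈ Rs J y, Lam p.1 = 2 ^ J.card * ∑ A ∈ J.powerset,
      (1 / 2 : ℝ) ^ A.card * Lam A := by
    rw [sum_Rs J y fun A _ => Lam A, mul_sum]
    refine sum_congr rfl fun A hA => ?_
    have h3 := card_sub (mem_powerset.1 hA) y
    rw [sum_const, nsmul_eq_mul, ← h3]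
    have h4 : (2 : ℝ) ^ A.card * (1 / 2) ^ A.card = 1 := by
      rw [← mul_pow]; norm_num
    calc _ = _ * ((2 : ℝ) ^ A.card * (1 / 2) ^ A.card) * Lam A := by rw [h4, mul_one]
      _ = _ := by ring
  have hXS : ∑ p ∈ Rs J y, (2 : ℝ) ^ p.1.card = 2 ^ J.card * 2 ^ J.card := by
    rw [sum_Rs J y fun A _ => (2 : ℝ) ^ A.card]
    have h3 : ∀ A ∈ J.powerset, ∑ x ∈ univ.filter (fun x : V → Bool =>
          (∀ v ∈ A, x v = false) ∧ ∀ v, v ∉ J → x v = y v), (2 : ℝ) ^ A.card = 2 ^ J.card := by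
      intro A hA
      rw [sum_const, nsmul_eq_mul, card_sub (mem_powerset.1 hA) y]
    rw [sum_congr rfl h3, sum_const, card_powerset, nsmul_eq_mul]
    norm_cast
  have h2J : (0 : ℝ) < 2 ^ J.card := by positivity
  rw [hLamS, hXS] at hsum
  have hL : 0 ≤ ∑ A ∈ J.powerset, (1 / 2 : ℝ) ^ A.card * Lam A :=
    sum_nonneg fun A _ => mul_nonneg (by positivity) (hε0 A)
  rw [← mul_le_mul_iff_right₀ h2J, BB]
  refine (hleft.trans hsum).trans ?_
  rw [mul_add]
  refine add_le_add ?_ (le_of_eq (by ring))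
  have h5 : (0 : ℝ) ≤ 2 ^ J.card * ∑ A ∈ J.powerset, (1 / 2 : ℝ) ^ A.card * Lam A := by positivity
  nlinarith

end

end Vale.Agent.P336.H742
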