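import Vale.Agent.P336.H663.Global
import Vale.Agent.P336.H932.Slice

/-!
# P336: circuits with bounded bottom fan-in
-/

set_option linter.unusedSectionVars false

namespace Vale.Agent.P336.H742

open Finset Vale.Agent.P336.Expansion

/-- The variable of a literal. -/
def vr {n : ℕ} : Lit n → Option (Fin n)
  | .pos i => some i
  | .neg i => some i
  | .const _ => none

/-- The width of the clause of a bottom gate. -/
theorem card_clOf_le {n k : ℕ} {L : Set (Lit n)} (hL : L.encard ≤ k) :
    (clOf L).S.card ≤ k := by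
  classical
  have hfin : L.Finite := Set.finite_of_encard_le_coe hL
  have h1 : (clOf L).S.image some ⊆ hfin.toFinset.image vr := by
    intro o ho
    obtain ⟨i, hi, rfl⟩ := mem_image.1 ho
    simp only [clOf, mem_filter, mem_univ, true_and] at hi
    rw [mem_image]
    rcases hi with hi | hi
    · exact ⟨_, hfin.mem_toFinset.2 hi, rfl⟩
    · exact ⟨_, hfin.mem_toFinset.2 hi, rfl⟩
  have h2 : (clOf L).S.card ≤ hfin.toFinset.card := by
    rw [← card_image_of_injective _ (Option.some_injective (Fin n))]
    exact (card_le_card h1).trans card_image_le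
  refine h2.trans ?_
  rw [hfin.encard_eq_coe_toFinset_card] at hL
  exact_mod_cast hL

/-- Global step for circuits with bottom fan-in at most `k`. -/
theorem size_of_corr {n : ℕ} (f : (Fin n → Bool) → Bool) {k : ℕ} {δ : ℝ} (hδ : δ ≤ 1 / 2)
    (h : Corr (sgn f) k δ) (K : Circuit n) (hK : ∀ i, (K.lits i).encard ≤ k)
    (hf : K.Computes f) : 1 / 4 ≤ K.size * δ := by
  classical
  set T : ℝ := 2 ^ Fintype.card (Fin n) with hT
  have hN : 0 < T := by positivity
  have h0 := h 0 (fun _ => ⟨∅, fun _ => false⟩) (by simp)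
  have hδ0 : 0 ≤ δ := by
    have h1 := (abs_nonneg _).trans h0
    exact nonneg_of_mul_nonneg_left h1 hN
  -- the set accepted by the middle gate `j`
  let F : Fin K.middle → Finset (Fin n → Bool) := fun j =>
    univ.filter fun x => ∀ i ∈ K.conj j, ∃ l ∈ K.lits i, l.eval x = true
  let P : Fin K.middle → Set (Fin K.bottom) := fun j => {i | i ∈ K.conj j ∧ Proper (K.lits i)}
  let F' : Fin K.middle → Finset (Fin n → Bool) := fun j =>
    univ.filter fun x => ∀ i ∈ P j, ¬ ∀ v ∈ (clOf (K.lits i)).S, x v = (clOf (K.lits i)).c v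
  have hFF' : ∀ j, F j = F' j := by
    intro j
    ext x
    simp only [F, F', mem_filter, mem_univ, true_and]
    constructor
    · rintro hx i ⟨hi, hp⟩
      exact (sat_iff hp x).1 (hx i hi)
    · intro hx i hi
      by_cases hp : Proper (K.lits i)
      · exact (sat_iff hp x).2 (hx i ⟨hi, hp⟩)
      · exact sat_of_not_proper hp x
  have hbad : ∀ j ∈ K.top, ((F j).card : ℝ) ≤ δ * T := by
    intro j hj
    have h1 : ∀ x ∈ F j, sgn f x = 1 := by
      intro x hx
      simp only [F, mem_filter, mem_univ, true_and] at hx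
      rw [sgn, if_pos ((hf x).1 ⟨j, hj, hx⟩)]
    have h2 : ((F j).card : ℝ) = ∑ x ∈ F j, sgn f x := by
      rw [sum_congr rfl h1]
      simp
    have h5 := corr_fintype h (fun i => clOf (K.lits i)) (P j) fun i _ => card_clOf_le (hK i)
    rw [h2, hFF' j]
    refine (le_abs_self _).trans (le_trans (le_of_eq ?_) h5)
    congr!
  -- the number of accepted points
  have hone : (((univ : Finset (Fin n → Bool)).filter fun x => f x = true).card : ℝ) ≤
      K.middle * (δ * T) := by
    have h1 : (univ.filter fun x => f x = true) ⊆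
        (univ.filter fun j => j ∈ K.top).biUnion F := by
      intro x hx
      obtain ⟨j, hj, hx⟩ := (hf x).2 (mem_filter.1 hx).2
      exact mem_biUnion.2 ⟨j, mem_filter.2 ⟨mem_univ _, hj⟩, mem_filter.2 ⟨mem_univ _, hx⟩⟩
    have h2 : (((univ : Finset (Fin n → Bool)).filter fun x => f x = true).card : ℝ) ≤
        ∑ j with j ∈ K.top, ((F j).card : ℝ) := by
      exact_mod_cast (card_le_card h1).trans card_biUnion_le
    refine h2.trans ((sum_le_sum fun j hj => hbad j (mem_filter.1 hj).2).trans ?_)
    rw [sum_const, nsmul_eq_mul]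
    refine mul_le_mul_of_nonneg_right ?_ (by positivity)
    exact_mod_cast (card_le_univ _).trans (by simp)
  have htwo : (1 - δ) / 2 * T ≤ ((univ : Finset (Fin n → Bool)).filter fun x => f x = true).card := by
    have h1 : ∑ x, sgn f x * ∏ i ∈ range 0, ind ((fun _ => (⟨∅, fun _ => false⟩ : Cl (Fin n))) i) x =
        2 * ((univ : Finset (Fin n → Bool)).filter fun x => f x = true).card - T := by
      have h2 : ∀ x, sgn f x = 2 * (if f x = true then 1 else 0) - 1 := by
        intro x
        unfold sgn
        split_ifs <;> norm_num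
      simp only [range_zero, prod_empty, mul_one]
      rw [sum_congr rfl fun x _ => h2 x, sum_sub_distrib, ← mul_sum, sum_boole]
      simp [hT]
    rw [h1] at h0
    have := (abs_le.1 h0).1
    linarith
  have hM : (K.middle : ℝ) ≤ K.size := by
    exact_mod_cast (by unfold Circuit.size; omega : K.middle ≤ K.size)
  have h8 : (1 - δ) / 2 * T ≤ (K.size * δ) * T := by
    refine htwo.trans (hone.trans ?_)
    rw [← mul_assoc]
    exact mul_le_mul_of_nonneg_right (mul_le_mul_of_nonneg_right hM hδ0) hN.le
  have h10 := le_of_mul_le_mul_right h8 hN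
  linarith

/-- Substitution of literals and constants in a circuit. -/
def substC {n m : ℕ} (σ : Fin m → Lit n) (C : Circuit m) : Circuit n :=
  ⟨C.bottom, C.middle, fun k => Lit.subst σ '' C.lits k, C.conj, C.top⟩

theorem substC_computes {n m : ℕ} (σ : Fin m → Lit n) (C : Circuit m) (f : (Fin n → Bool) → Bool)
    (g : (Fin m → Bool) → Bool) (h : ∀ x, f x = g fun i => (σ i).eval x) (hC : C.Computes g) :
    (substC σ C).Computes f := by
  intro x
  rw [h, ← hC]
  simp only [substC, Circuit.Accepts, Set.mem_image, exists_exists_and_eq_and, Lit.subst_eval]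
  exact Iff.rfl

/-- The bound for circuits with bottom fan-in `≤ k` computing a slice of the language or of its
complement. -/
theorem size_lang_of_hB {g m b n k : ℕ} {δ : ℝ} (a : Fin g × Fin m × Fin m → Bool)
    (hn : codeLen g m b ≤ n) (hδ : δ ≤ 1 / 2)
    (h : Corr (fun x : (Fin g × (Fin m ⊕ Fin m)) × Fin b → Bool =>
      Moment.hB a (Expansion.yv Expansion.parity x)) k δ)
    (C : Circuit n) (hC : ∀ i, (C.lits i).encard ≤ k)
    (hcomp : (∀ x, C.Accepts x ↔ slice lang n x = true) ∨
      (∀ x, C.Accepts x ↔ slice lang n x = false)) :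
    1 / 4 ≤ C.size * δ := by
  obtain ⟨N, ⟨e⟩⟩ : ∃ N, Nonempty ((Fin g × (Fin m ⊕ Fin m)) × Fin b ≃ Fin N) :=
    ⟨_, ⟨Fintype.equivFin _⟩⟩
  have h' := h.congr fun x => (hB_eq a (Expansion.yv Expansion.parity x)).symm
  set a' : Fin g → Fin m → Fin m → Bool := fun i j k => a (i, j, k) with ha'
  obtain ⟨σ, hσ⟩ := exists_sigma a' hn e
  have hsz : (substC σ C).size = C.size := rfl
  have hlits : ∀ i, ((substC σ C).lits i).encard ≤ k := fun i =>
    (Set.encard_image_le (Lit.subst σ) (C.lits i)).trans (hC i)
  rw [← hsz]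
  rcases hcomp with hcomp | hcomp
  · have h0 : Corr (sgn (formFn b a')) k δ := h'.neg fun x => sgn_formFn a' x
    exact size_of_corr _ hδ (h0.map e) (substC σ C) hlits
      (substC_computes σ C _ (slice lang n) hσ hcomp)
  · have h0 : Corr (sgn fun x => !formFn b a' x) k δ := h'.congr fun x => sgn_not_formFn a' x
    refine size_of_corr _ hδ (h0.map e) (substC σ C) hlits
      (substC_computes σ C (fun x => !formFn b a' fun v => x (e v)) (fun x => !slice lang n x)
        (fun x => by rw [hσ]) fun x => ?_)
    rw [hcomp]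
    change slice lang n x = false ↔ (!slice lang n x) = true
    simp

end Vale.Agent.P336.H742
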