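import Mathlib

/-!
# P336: growth of the parameters of the stronger bound
-/

namespace Vale.Agent.P336.H742

open Finset Filter

/-- The slowly growing parameter, about `√(log n)` up to a constant. -/
def gτ (n : ℕ) : ℕ := Nat.sqrt (Nat.size (Nat.sqrt n) / 64)

/-- `≈ √n / 256 * τ`. -/
def gν (n : ℕ) : ℕ := Nat.sqrt n / 256 * gτ n

theorem gν_lower (ℓ : ℕ) (h1 : (1024 : ℝ) ≤ Real.sqrt ℓ) (hL : 4096 ≤ Real.log ℓ) :
    Real.sqrt (ℓ * Real.log ℓ) / 50000 ≤ gν ℓ := by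
  set L := Real.log ℓ with hLdef
  set s := Nat.sqrt ℓ with hs
  have hlog2' : Real.log 2 < 1 := by linarith [Real.log_two_lt_d9]
  have hlog20 : 0 < Real.log 2 := Real.log_pos (by norm_num)
  have hℓ0 : (0 : ℝ) < Real.sqrt ℓ := by linarith
  have hℓpos : (0 : ℝ) < ℓ := by
    by_contra h
    have : Real.sqrt ℓ = 0 := Real.sqrt_eq_zero_of_nonpos (not_lt.mp h)
    linarith
  have hs2 : Real.sqrt ℓ ≤ s + 1 := by
    rw [Real.sqrt_le_left (by positivity)]
    have h3 : ℓ ≤ (s + 1) ^ 2 := by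
      rw [hs]
      exact (Nat.lt_succ_sqrt' ℓ).le
    exact_mod_cast h3
  have hs3 : Real.sqrt ℓ / 2 ≤ s := by linarith
  have hspos : (0 : ℝ) < s := by linarith
  have hlogsqrt : Real.log (Real.sqrt ℓ) = L / 2 := by
    rw [Real.log_sqrt hℓpos.le]
  -- lower bound on `size s`
  set S1 := Nat.size s with hS1
  have hS1lo : L / 4 ≤ S1 := by
    have h4 : s < 2 ^ S1 := Nat.lt_size_self s
    have h5 : Real.log s ≤ S1 * Real.log 2 := by
      rw [← Real.log_pow]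
      exact Real.log_le_log hspos (by exact_mod_cast h4.le)
    have h6 : Real.log (Real.sqrt ℓ / 2) ≤ Real.log s := Real.log_le_log (by positivity) hs3
    rw [Real.log_div (by positivity) (by norm_num), hlogsqrt] at h6
    have h7 : (0 : ℝ) ≤ S1 := by positivity
    nlinarith
  -- the quotient
  set A := S1 / 64 with hA
  have hAlo : L / 256 ≤ A + 1 := by
    have h4 : S1 < 64 * (A + 1) := by
      rw [hA]
      exact Nat.lt_mul_div_succ S1 (by positivity)
    have h5 : (S1 : ℝ) ≤ 64 * (A + 1) := by exact_mod_cast h4.le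
    linarith
  have hAlo2 : L / 512 ≤ A := by linarith
  have hτ : gτ ℓ = Nat.sqrt A := rfl
  have hτlo : Real.sqrt (L / 512) / 2 ≤ gτ ℓ := by
    have h4 : A ≤ (gτ ℓ + 1) ^ 2 := by
      rw [hτ]; exact (Nat.lt_succ_sqrt' A).le
    have h5 : Real.sqrt (L / 512) ≤ gτ ℓ + 1 := by
      rw [Real.sqrt_le_left (by positivity)]
      refine hAlo2.trans ?_
      exact_mod_cast h4
    have h6 : 2 ≤ Real.sqrt (L / 512) := by
      apply Real.le_sqrt_of_sq_le
      rw [le_div_iff₀ (by norm_num)]; linarith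
    linarith
  have hs64 : Real.sqrt ℓ / 1024 ≤ ((s / 256 : ℕ) : ℝ) := by
    have h4 : s < 256 * (s / 256 + 1) := Nat.lt_mul_div_succ s (by norm_num)
    have h5 : (s : ℝ) ≤ 256 * (((s / 256 : ℕ) : ℝ) + 1) := by exact_mod_cast h4.le
    linarith
  have hν : (gν ℓ : ℝ) = ((s / 256 : ℕ) : ℝ) * gτ ℓ := by
    rw [gν]; push_cast; rfl
  rw [hν]
  have h512 : Real.sqrt 512 ≤ 23 := by
    rw [Real.sqrt_le_left (by norm_num)]; norm_num
  have hsq : Real.sqrt (ℓ * L) = Real.sqrt ℓ * Real.sqrt (L / 512) * Real.sqrt 512 := by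
    rw [← Real.sqrt_mul hℓpos.le, ← Real.sqrt_mul (by positivity)]
    congr 1
    field_simp
  rw [hsq]
  have hb : 0 ≤ Real.sqrt (L / 512) := Real.sqrt_nonneg _
  calc Real.sqrt ℓ * Real.sqrt (L / 512) * Real.sqrt 512 / 50000
      ≤ Real.sqrt ℓ * Real.sqrt (L / 512) * 23 / 50000 := by gcongr
    _ ≤ Real.sqrt ℓ * Real.sqrt (L / 512) * (1 / 2048) := by
        rw [mul_div_assoc]
        refine mul_le_mul_of_nonneg_left (by norm_num) (by positivity)
    _ = (Real.sqrt ℓ / 1024) * (Real.sqrt (L / 512) / 2) := by ring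
    _ ≤ ((s / 256 : ℕ) : ℝ) * gτ ℓ := by gcongr

theorem growth :
    ∃ c : ℝ, 0 < c ∧ ∀ᶠ n : ℕ in Filter.atTop,
      (2 : ℝ) ^ (c * Real.sqrt (n * Real.log n)) ≤
        2 ^ (Nat.sqrt n / 256 * Nat.sqrt (Nat.size (Nat.sqrt n) / 64)) := by
  refine ⟨1 / 50000, by norm_num, ?_⟩
  have hnat : Tendsto (fun n : ℕ => (n : ℝ)) atTop atTop := tendsto_natCast_atTop_atTop
  have hsqrt : Tendsto (fun n : ℕ => Real.sqrt n) atTop atTop :=
    Real.tendsto_sqrt_atTop.comp hnat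
  have hlog : Tendsto (fun n : ℕ => Real.log n) atTop atTop :=
    Real.tendsto_log_atTop.comp hnat
  filter_upwards [hsqrt.eventually_ge_atTop 1024, hlog.eventually_ge_atTop 4096] with ℓ h1 h2
  have key := gν_lower ℓ h1 h2
  have h5 : 1 / 50000 * Real.sqrt (ℓ * Real.log ℓ) ≤ gν ℓ := by linarith
  calc (2 : ℝ) ^ (1 / 50000 * Real.sqrt (ℓ * Real.log ℓ)) ≤ (2 : ℝ) ^ ((gν ℓ : ℕ) : ℝ) :=
        Real.rpow_le_rpow_of_exponent_le (by norm_num) h5
    _ = 2 ^ gν ℓ := Real.rpow_natCast _ _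

end Vale.Agent.P336.H742
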