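import Vale.Agent.P336.H742.Numerics
import Vale.Agent.P336.H742.Average
import Vale.Agent.P336.H742.Growth
import Vale.Agent.P336.H932.Slice
import Vale.Agent.P336.H932.LangP
import Vale.Agent.P336.H792.Final

/-!
# P336: the lower bound `2 ^ (c √(n log n))`
-/

namespace Vale.Agent.P336.H742

open Vale.Agent.P336.H742.Num

/-- The lower bound for the slices of the language and of its complement. -/
theorem S3_lang_ge {n : ℕ} (hn : 12 ≤ Nat.size (Nat.size (Nat.sqrt n))) :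
    2 ^ nu (Nat.sqrt n) ≤ S3 (slice lang n) ∧ 2 ^ nu (Nat.sqrt n) ≤ S3 fun x => !slice lang n x := by
  set S := Nat.sqrt n with hS
  have hB : Basic S := basic hn
  have hcard : Fintype.card (Fin (gg S) × (Fin (mm S) ⊕ Fin (mm S))) = NN S := by
    rw [Fintype.card_prod, Fintype.card_sum, Fintype.card_fin, Fintype.card_fin, NN]
    ring
  have ht : 1 ≤ gg S := Nat.mul_pos hB.hτ hB.hτ
  have hb : 0 < bb S := Nat.div_pos (by have := tau_le hB; omega) hB.hτ
  have hk : 12 * kk S ≤ bb S * gg S := Nat.mul_div_le _ _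
  have hw := width hB
  obtain ⟨a, ha⟩ := corr_seed (G := Fin (gg S)) (U := Fin (mm S)) (t := gg S)
    (K := KK S) (b := bb S) (k := kk S) (n := nm S) (Q := QQ S) (s := ss S) ht hb hk
    (even_two_mul _) (by rw [hcard]; exact union hB) (th_pos hB) (th_le S) (th_eta S)
    (δ := 1 / 2 ^ (nu S + 3)) (by rw [Fintype.card_fin, Fintype.card_fin]; exact delta_le hB)
  have hlen : codeLen (gg S) (mm S) (bb S) ≤ n := (space hB).trans (Nat.sqrt_le n)
  have hδ : (1 : ℝ) / 2 ^ (nu S + 3) ≤ 1 / 2 := by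
    apply one_div_le_one_div_of_le (by norm_num)
    calc (2 : ℝ) = 2 ^ 1 := by norm_num
      _ ≤ 2 ^ (nu S + 3) := pow_le_pow_right₀ (by norm_num) (by omega)
  obtain ⟨h1, h2⟩ := S3_lang_of_hB a hlen hδ ha
  exact ⟨le_of_ineq hw h1, le_of_ineq hw h2⟩

/-- **Main theorem**. -/
theorem main : ∃ L : Set (List Bool), InP L ∧ ∃ c : ℝ, 0 < c ∧ ∀ᶠ n : ℕ in Filter.atTop,
    (2 : ℝ) ^ (c * Real.sqrt (n * Real.log n)) ≤ S3 (slice L n) ∧
    (2 : ℝ) ^ (c * Real.sqrt (n * Real.log n)) ≤ S3 (fun x => !slice L n x) := by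
  obtain ⟨c, hc, hg⟩ := growth
  refine ⟨lang, inP_lang, c, hc, ?_⟩
  filter_upwards [hg, Filter.eventually_ge_atTop ((2 ^ 2 ^ 11) * (2 ^ 2 ^ 11))] with n h1 h2
  have hS : 2 ^ 2 ^ 11 ≤ Nat.sqrt n := Nat.le_sqrt.2 h2
  have hsz : 12 ≤ Nat.size (Nat.size (Nat.sqrt n)) := by
    have h3 := size_large hS
    exact size_large (k := 11) h3.le
  obtain ⟨h3, h4⟩ := S3_lang_ge hsz
  have h5 : (2 : ℝ) ^ (c * Real.sqrt (n * Real.log n)) ≤ 2 ^ nu (Nat.sqrt n) := h1
  exact ⟨h5.trans (by exact_mod_cast h3), h5.trans (by exact_mod_cast h4)⟩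

end Vale.Agent.P336.H742
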