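import Mathlib

/-!
# P336: the parameters for bottom fan-in `k`
-/

namespace Vale.Agent.P336.H742.NumK

/-- about `log (k / log n)` -/
def kap (n k : ℕ) : ℕ := Nat.size (k / Nat.size n)

/-- width of the narrow clauses -/
def tt (n k : ℕ) : ℕ := kap n k / 64

/-- size of the blocks, and half the size of the groups -/
def bb (n k : ℕ) : ℕ := 12 * k / tt n k + 1

/-- number of groups -/
def gg (n k : ℕ) : ℕ := n / (18 * (bb n k * bb n k))

/-- number of blocks -/
def NN (n k : ℕ) : ℕ := 2 * (gg n k * bb n k)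

/-- the exponent of the lower bound -/
def nu (n k : ℕ) : ℕ := gg n k * bb n k / 32

/-- the moment -/
def nm (n k : ℕ) : ℕ := 2 * (bb n k / 128)

/-- exponent of the union bound divided by the moment -/
def QQ (n k : ℕ) : ℕ := gg n k * bb n k / 64

/-- length of the chains -/
def ss (n k : ℕ) : ℕ := (nu n k + 6) / tt n k + 1

/-- the number of clauses of the sparse formulas -/
def KK (n k : ℕ) : ℕ := NN n k * 8 ^ tt n k

/-- The hypotheses on the parameters. -/
structure Hyp (n k : ℕ) : Prop where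
  hκ : 64 ≤ kap n k
  hg : 1 ≤ gg n k

variable {n k : ℕ}

theorem bb_pos (n k : ℕ) : 1 ≤ bb n k := Nat.succ_le_succ (Nat.zero_le _)

theorem tt_pos (h : Hyp n k) : 1 ≤ tt n k := by
  have := h.hκ
  unfold tt
  omega

theorem k_ge (h : 64 ≤ kap n k) : 2 ^ (kap n k - 1) * Nat.size n ≤ k := by
  have h1 : 2 ^ (kap n k - 1) ≤ k / Nat.size n := Nat.lt_size.1 (by unfold kap at h ⊢; omega)
  exact (Nat.mul_le_mul_right _ h1).trans (Nat.div_mul_le_self _ _)

theorem bt_ge (h : Hyp n k) : 12 * k ≤ bb n k * tt n k := by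
  have h1 := Nat.lt_mul_div_succ (12 * k) (tt_pos h)
  rw [mul_comm (bb n k)]
  exact h1.le

theorem n_pos (h : Hyp n k) : 1 ≤ Nat.size n := by
  have h1 := h.hg
  by_contra h2
  have h3 : Nat.size n = 0 := by omega
  rw [Nat.size_eq_zero] at h3
  unfold gg at h1
  rw [h3] at h1
  simp at h1

/-- the blocks are large -/
theorem bb_ge (h : Hyp n k) : 2 ^ 18 * (8 ^ tt n k * (Nat.size n * tt n k)) ≤ bb n k := by
  have ht := tt_pos h
  have h1 := bt_ge h
  have h3 := k_ge h.hκ
  have h4 := h.hκ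
  have h5 : tt n k * 64 ≤ kap n k := Nat.div_mul_le_self _ _
  have h6 : tt n k < 2 ^ tt n k := Nat.lt_two_pow_self
  have hL := n_pos h
  have hk : 0 < k := lt_of_lt_of_le (Nat.mul_pos (by positivity) hL) h3
  generalize kap n k = κ at *
  generalize Nat.size n = L at *
  generalize tt n k = t at *
  generalize bb n k = b at *
  by_contra hcon
  push Not at hcon
  have h9 : b * t < 2 ^ 18 * (8 ^ t * (L * t)) * t := Nat.mul_lt_mul_of_pos_right hcon ht
  have h10 : 2 ^ 18 * (8 ^ t * (L * t)) * t ≤ k := by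
    calc 2 ^ 18 * (8 ^ t * (L * t)) * t = 2 ^ 18 * 8 ^ t * (t * t) * L := by ring
      _ ≤ 2 ^ 18 * 8 ^ t * (2 ^ t * 2 ^ t) * L := by gcongr
      _ = 2 ^ (18 + 3 * t + (t + t)) * L := by
          rw [show (8 : ℕ) = 2 ^ 3 by norm_num, ← pow_mul, pow_add, pow_add, pow_add]
      _ ≤ 2 ^ (κ - 1) * L := by
          gcongr
          · norm_num
          · omega
      _ ≤ k := h3
  omega

theorem bb_large (h : Hyp n k) : 2 ^ 18 ≤ bb n k ∧ 2 ^ 18 * tt n k ≤ bb n k := by
  have h1 := bb_ge h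
  have h2 := n_pos h
  have h3 := tt_pos h
  have h4 : 1 ≤ 8 ^ tt n k := Nat.one_le_pow _ _ (by norm_num)
  have h5 : tt n k ≤ 8 ^ tt n k * (Nat.size n * tt n k) := by
    calc tt n k = 1 * (1 * tt n k) := by ring
      _ ≤ 8 ^ tt n k * (Nat.size n * tt n k) := by gcongr
  constructor
  · calc 2 ^ 18 = 2 ^ 18 * 1 := by ring
      _ ≤ 2 ^ 18 * (8 ^ tt n k * (Nat.size n * tt n k)) := Nat.mul_le_mul_left _ (h3.trans h5)
      _ ≤ bb n k := h1
  · exact (Nat.mul_le_mul_left _ h5).trans h1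

/-- space -/
theorem space (n k : ℕ) :
    gg n k * (2 * (bb n k * (2 * bb n k + 2) + 2) + (bb n k * bb n k * 4 + 2)) ≤ n := by
  have h1 : 18 * (bb n k * bb n k) * gg n k ≤ n := Nat.mul_div_le n (18 * (bb n k * bb n k))
  have h2 : 1 ≤ bb n k := bb_pos n k
  generalize gg n k = g at *
  generalize bb n k = b at *
  have h3 : b ≤ b * b := Nat.le_mul_of_pos_left _ h2
  calc g * (2 * (b * (2 * b + 2) + 2) + (b * b * 4 + 2)) = g * (8 * (b * b) + 4 * b + 6) := by ring
    _ ≤ g * (18 * (b * b)) := by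
        apply Nat.mul_le_mul_left
        nlinarith
    _ = 18 * (b * b) * g := by ring
    _ ≤ n := h1

theorem NN_le (h : Hyp n k) : 1 + 2 * NN n k ≤ n := by
  have h1 : 18 * (bb n k * bb n k) * gg n k ≤ n := Nat.mul_div_le n (18 * (bb n k * bb n k))
  have h2 := (bb_large h).1
  have h3 := h.hg
  unfold NN
  generalize gg n k = g at *
  generalize bb n k = b at *
  have h5 : 5 * (g * b) ≤ 18 * (b * b) * g := by
    calc 5 * (g * b) ≤ (18 * b) * (g * b) := Nat.mul_le_mul_right _ (by omega)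
      _ = 18 * (b * b) * g := by ring
  have h6 : 1 ≤ g * b := by nlinarith
  omega

theorem NN_lt (h : Hyp n k) : 1 + 2 * NN n k ≤ 2 ^ Nat.size n :=
  (NN_le h).trans (Nat.lt_size_self n).le

/-- the moment times its exponent -/
theorem nmQQ_ge (h : Hyp n k) : NN n k * bb n k ≤ 2 ^ 15 * (nm n k * QQ n k) := by
  have h1 := (bb_large h).1
  have h3 := h.hg
  unfold nm QQ NN
  generalize gg n k = g at *
  generalize bb n k = b at *
  have h4 : b ≤ 256 * (b / 128) := by omega
  have h5 : g * b ≤ 128 * (g * b / 64) := by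
    have : 1 * 2 ^ 18 ≤ g * b := Nat.mul_le_mul h3 h1
    omega
  calc 2 * (g * b) * b ≤ 2 * (128 * (g * b / 64)) * (256 * (b / 128)) := by gcongr
    _ = 2 ^ 15 * (2 * (b / 128) * (g * b / 64)) := by ring

/-- union bound -/
theorem union (h : Hyp n k) :
    4 ^ NN n k * (1 + (1 + 2 * NN n k) ^ tt n k) ^ KK n k < 2 ^ (nm n k * QQ n k) := by
  have h1 := NN_lt h
  have h2 := nmQQ_ge h
  have h3 := bb_ge h
  have h4 := n_pos h
  have h5 := tt_pos h
  have h6 : 1 ≤ 8 ^ tt n k := Nat.one_le_pow _ _ (by norm_num)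
  have h7 : 1 ≤ NN n k := by
    have h8 := h.hg
    have h9 := (bb_large h).1
    unfold NN
    nlinarith
  unfold KK
  generalize NN n k = N at *
  generalize tt n k = t at *
  generalize bb n k = b at *
  generalize Nat.size n = L at *
  generalize nm n k * QQ n k = q at *
  generalize 8 ^ t = e at *
  have h8 : 1 + (1 + 2 * N) ^ t ≤ 2 ^ (L * t + 1) := by
    have h9 : (1 + 2 * N) ^ t ≤ 2 ^ (L * t) := by
      rw [pow_mul]
      exact Nat.pow_le_pow_left h1 t
    have h10 : 1 ≤ 2 ^ (L * t) := Nat.one_le_two_pow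
    rw [pow_succ]
    omega
  calc 4 ^ N * (1 + (1 + 2 * N) ^ t) ^ (N * e) ≤ 2 ^ (2 * N) * (2 ^ (L * t + 1)) ^ (N * e) := by
        have : (4 : ℕ) ^ N = 2 ^ (2 * N) := by rw [pow_mul]; norm_num
        rw [this]
        gcongr
    _ = 2 ^ (2 * N + (L * t + 1) * (N * e)) := by rw [← pow_mul, ← pow_add]
    _ < 2 ^ q := by
      refine Nat.pow_lt_pow_right (by norm_num) ?_
      have h9 : 1 ≤ L * t := Nat.mul_pos h4 h5
      have h10 : 2 * N + (L * t + 1) * (N * e) ≤ 4 * (N * (e * (L * t))) := by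
        have a1 : N * 1 ≤ N * (e * (L * t)) := Nat.mul_le_mul_left _ (Nat.mul_pos h6 h9)
        have a2 : 1 * (N * e) ≤ (L * t) * (N * e) := Nat.mul_le_mul_right _ h9
        have a3 : (L * t + 1) * (N * e) = (L * t) * (N * e) + 1 * (N * e) := by ring
        have a4 : (L * t) * (N * e) = N * (e * (L * t)) := by ring
        omega
      have h11 : 2 ^ 18 * (N * (e * (L * t))) ≤ N * b := by
        calc 2 ^ 18 * (N * (e * (L * t))) = N * (2 ^ 18 * (e * (L * t))) := by ring
          _ ≤ N * b := Nat.mul_le_mul_left _ h3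
      have h12 : 0 < N * (e * (L * t)) := Nat.mul_pos h7 (Nat.mul_pos h6 h9)
      omega

/-- the length of the chains -/
theorem chain_len (h : Hyp n k) :
    nu n k + 6 ≤ tt n k * ss n k ∧ tt n k * ss n k ≤ nu n k + 6 + tt n k := by
  have ht1 := tt_pos h
  unfold ss
  have h1 := Nat.lt_mul_div_succ (nu n k + 6) ht1
  have h2 := Nat.mul_div_le (nu n k + 6) (tt n k)
  constructor
  · exact h1.le
  · rw [mul_add, mul_one]
    omega

/-- the exponent of the correlation bound -/
theorem expo (h : Hyp n k) :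
    tt n k * ss n k + (gg n k * nm n k + QQ n k) + gg n k + (nu n k + 6) ≤
      2 * (gg n k * bb n k / 11) := by
  have h0 := (chain_len h).2
  have h1 := (bb_large h).1
  have h2 := (bb_large h).2
  have h3 := h.hg
  generalize tt n k * ss n k = X at *
  revert h0
  unfold nm QQ nu
  intro h0
  have e1 : gg n k * (2 * (bb n k / 128)) * 64 ≤ gg n k * bb n k := by
    calc gg n k * (2 * (bb n k / 128)) * 64 = gg n k * (128 * (bb n k / 128)) := by ring
      _ ≤ gg n k * bb n k := Nat.mul_le_mul_left _ (Nat.mul_div_le _ _)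
  have e2 : gg n k * 2 ^ 18 ≤ gg n k * bb n k := Nat.mul_le_mul_left _ h1
  have e3 : 1 * bb n k ≤ gg n k * bb n k := Nat.mul_le_mul_right _ h3
  generalize gg n k * (2 * (bb n k / 128)) = x1 at *
  generalize gg n k * bb n k = y at *
  generalize gg n k = g at *
  generalize bb n k = b at *
  generalize tt n k = t at *
  omega

theorem nu_le_NN (h : Hyp n k) : nu n k + 7 ≤ NN n k := by
  have h1 := (bb_large h).1
  have h3 := h.hg
  have e3 : 1 * bb n k ≤ gg n k * bb n k := Nat.mul_le_mul_right _ h3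
  unfold nu NN
  omega

/-- the density threshold -/
noncomputable def th (n k : ℕ) : ℝ := 1 - 1 / 8 ^ tt n k

theorem th_pos (h : Hyp n k) : 0 < th n k := by
  have ht1 := tt_pos h
  unfold th
  have h1 : (1 : ℝ) < 8 ^ tt n k := one_lt_pow₀ (by norm_num) (by omega)
  have h2 : (1 : ℝ) / 8 ^ tt n k < 1 := by
    rw [div_lt_one (by positivity)]
    exact h1
  linarith

theorem th_le (n k : ℕ) : th n k ≤ 1 := by
  unfold th
  have h1 : (0 : ℝ) ≤ 1 / 8 ^ tt n k := by positivity
  linarith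

theorem th_eta (n k : ℕ) : (1 - th n k) * 3 ^ tt n k ≤ (1 / 2) ^ tt n k := by
  unfold th
  have h1 : (1 - (1 - 1 / 8 ^ tt n k)) * (3 : ℝ) ^ tt n k = (3 / 8) ^ tt n k := by
    rw [div_pow]
    ring
  rw [h1]
  exact pow_le_pow_left₀ (by norm_num) (by norm_num) _

theorem th_pow (n k : ℕ) : th n k ^ KK n k ≤ (1 / 2) ^ NN n k := by
  have h1 : th n k ≤ Real.exp (-(1 / 8 ^ tt n k)) := by
    have := Real.add_one_le_exp (-(1 / (8 : ℝ) ^ tt n k))
    unfold th
    linarith
  have h0 : 0 ≤ th n k := by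
    unfold th
    have h2 : (1 : ℝ) / 8 ^ tt n k ≤ 1 := by
      rw [div_le_one (by positivity)]
      exact one_le_pow₀ (by norm_num)
    linarith
  have h8 : (8 : ℝ) ^ tt n k ≠ 0 := by positivity
  calc th n k ^ KK n k ≤ Real.exp (-(1 / 8 ^ tt n k)) ^ KK n k := pow_le_pow_left₀ h0 h1 _
    _ = Real.exp (-1) ^ NN n k := by
        rw [← Real.exp_nat_mul, ← Real.exp_nat_mul]
        congr 1
        unfold KK
        push_cast
        field_simp
    _ ≤ (1 / 2) ^ NN n k := by
        refine pow_le_pow_left₀ (Real.exp_pos _).le ?_ _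
        rw [Real.exp_neg, ← one_div]
        exact one_div_le_one_div_of_le (by norm_num) (by
          have := Real.add_one_le_exp (1 : ℝ)
          linarith)

/-- the correlation bound -/
theorem delta_le (h : Hyp n k) :
    2 * (2 ^ (tt n k * ss n k + (gg n k * nm n k + QQ n k) + gg n k) * (7 / 8) ^ (gg n k * bb n k) +
      (2 * th n k ^ KK n k + (1 / 2) ^ (tt n k * ss n k))) ≤ 1 / 2 ^ (nu n k + 3) := by
  have h1 := expo h
  have h4 := (chain_len h).1
  have h5 := nu_le_NN h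
  have h6 := th_pow n k
  generalize tt n k * ss n k + (gg n k * nm n k + QQ n k) + gg n k = x at *
  generalize tt n k * ss n k = X at *
  generalize gg n k * bb n k = y at *
  generalize nu n k = ν at *
  have h2 : ((7 : ℝ) / 8) ^ y ≤ (1 / 4) ^ (y / 11) := by
    calc ((7 : ℝ) / 8) ^ y ≤ (7 / 8) ^ (11 * (y / 11)) :=
          pow_le_pow_of_le_one (by norm_num) (by norm_num) (Nat.mul_div_le y 11)
      _ = ((7 / 8) ^ 11) ^ (y / 11) := by rw [pow_mul]
      _ ≤ (1 / 4) ^ (y / 11) := pow_le_pow_left₀ (by norm_num) (by norm_num) _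
  have h3 : ((1 : ℝ) / 4) ^ (y / 11) * 2 ^ (2 * (y / 11)) = 1 := by
    rw [pow_mul, ← mul_pow]
    norm_num
  have a1 : 2 ^ x * (7 / 8 : ℝ) ^ y ≤ (1 / 2) ^ (ν + 6) := by
    have e : ((1 : ℝ) / 2) ^ (ν + 6) = 1 / 2 ^ (ν + 6) := by rw [div_pow, one_pow]
    rw [e, le_div_iff₀ (by positivity)]
    calc (2 : ℝ) ^ x * (7 / 8) ^ y * 2 ^ (ν + 6) ≤
          2 ^ x * (1 / 4) ^ (y / 11) * 2 ^ (ν + 6) := by gcongr
      _ = (1 / 4) ^ (y / 11) * 2 ^ (x + (ν + 6)) := by
          rw [pow_add _ x]; ring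
      _ ≤ (1 / 4) ^ (y / 11) * 2 ^ (2 * (y / 11)) := by
          gcongr
          norm_num
      _ = 1 := h3
  have a2 : th n k ^ KK n k ≤ (1 / 2) ^ (ν + 7) :=
    h6.trans (pow_le_pow_of_le_one (by norm_num) (by norm_num) h5)
  have a3 : (1 / 2 : ℝ) ^ X ≤ (1 / 2) ^ (ν + 6) :=
    pow_le_pow_of_le_one (by norm_num) (by norm_num) h4
  have e1 : (1 : ℝ) / 2 ^ (ν + 3) = 8 * (1 / 2) ^ (ν + 6) := by
    rw [div_pow, one_pow, pow_add, pow_add]
    field_simp
    norm_num
  have e2 : ((1 : ℝ) / 2) ^ (ν + 7) = 1 / 2 * (1 / 2) ^ (ν + 6) := by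
    rw [pow_succ' _ (ν + 6)]
  rw [e1]
  have e3 : (0 : ℝ) ≤ (1 / 2) ^ (ν + 6) := by positivity
  linarith

/-- the block size is at most `13 k / t` -/
theorem bb_le (h64 : 64 ≤ kap n k) (hn : 1 ≤ Nat.size n) : bb n k * tt n k ≤ 13 * k := by
  have h1 := Nat.mul_div_le (12 * k) (tt n k)
  have h2 : tt n k ≤ kap n k := Nat.div_le_self _ _
  have h3 := k_ge h64
  have h4 : kap n k - 1 < 2 ^ (kap n k - 1) := Nat.lt_two_pow_self
  have h5 : 2 ^ (kap n k - 1) * 1 ≤ 2 ^ (kap n k - 1) * Nat.size n := Nat.mul_le_mul_left _ hn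
  have h6 : tt n k ≤ k := by omega
  unfold bb
  calc (12 * k / tt n k + 1) * tt n k = tt n k * (12 * k / tt n k) + tt n k := by ring
    _ ≤ 12 * k + k := Nat.add_le_add h1 h6
    _ = 13 * k := by ring

/-- the logarithm -/
theorem log_le (h64 : 64 ≤ kap n k) (hn : 1 ≤ Real.log n) :
    Real.log (k / Real.log n) ≤ kap n k := by
  have hn0 : 0 < n := by
    rcases Nat.eq_zero_or_pos n with h | h
    · rw [h] at hn
      norm_num at hn
    · exact h
  have hs1 : 1 ≤ Nat.size n := Nat.size_pos.2 hn0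
  have hkge := k_ge h64
  have hk0 : 0 < k := lt_of_lt_of_le (Nat.mul_pos (by positivity) hs1) hkge
  have h1 : k / Nat.size n < 2 ^ kap n k := Nat.lt_size_self _
  have h2 : k < 2 ^ kap n k * Nat.size n := (Nat.div_lt_iff_lt_mul hs1).1 h1
  have h3 : (Nat.size n : ℝ) ≤ 3 * Real.log n := by
    have h4 : 2 ^ (Nat.size n - 1) ≤ n := Nat.lt_size.1 (by omega)
    have h5 : ((Nat.size n - 1 : ℕ) : ℝ) * Real.log 2 ≤ Real.log n := by
      rw [← Real.log_pow]
      exact Real.log_le_log (by positivity) (by exact_mod_cast h4)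
    rw [Nat.cast_sub hs1] at h5
    push_cast at h5
    have h6 : (0.69 : ℝ) ≤ Real.log 2 := by linarith [Real.log_two_gt_d9]
    have h8 : (0 : ℝ) ≤ Nat.size n - 1 := by
      have : (1 : ℝ) ≤ Nat.size n := by exact_mod_cast hs1
      linarith
    have h9 : ((Nat.size n : ℝ) - 1) * 0.69 ≤ (Nat.size n - 1) * Real.log 2 := by gcongr
    linarith
  have hlog0 : (0 : ℝ) < Real.log n := by linarith
  have h4 : (k : ℝ) ≤ 2 ^ kap n k * Nat.size n := by exact_mod_cast h2.le
  have h5 : (k : ℝ) / Real.log n ≤ 3 * 2 ^ kap n k := by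
    rw [div_le_iff₀ hlog0]
    calc (k : ℝ) ≤ 2 ^ kap n k * Nat.size n := h4
      _ ≤ 2 ^ kap n k * (3 * Real.log n) := by gcongr
      _ = 3 * 2 ^ kap n k * Real.log n := by ring
  have hk0' : (0 : ℝ) < k := by exact_mod_cast hk0
  have h6 : Real.log (k / Real.log n) ≤ Real.log (3 * 2 ^ kap n k) :=
    Real.log_le_log (by positivity) h5
  rw [Real.log_mul (by norm_num) (by positivity), Real.log_pow] at h6
  have h7 : Real.log 3 ≤ 2 := by
    have := Real.log_le_sub_one_of_pos (show (0 : ℝ) < 3 by norm_num)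
    linarith
  have h8 : Real.log 2 ≤ 0.7 := by linarith [Real.log_two_lt_d9]
  have h9 : (64 : ℝ) ≤ kap n k := by exact_mod_cast h64
  have h10 : (kap n k : ℝ) * Real.log 2 ≤ kap n k * 0.7 := by gcongr
  linarith

/-- the exponent -/
theorem nu_ge (h : Hyp n k) (hn : 1 ≤ Real.log n) :
    (n : ℝ) * Real.log (k / Real.log n) / k ≤ 4000000 * nu n k := by
  have h1 := (bb_large h).1
  have h3 := h.hg
  have h64 := h.hκ
  have hL := n_pos h
  have hb := bb_le h64 hL
  have hkpos : 0 < k := lt_of_lt_of_le (Nat.mul_pos (by positivity) hL) (k_ge h64)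
  -- `n < 36 * b * b * g`
  have e1 : n ≤ 36 * (bb n k * bb n k) * gg n k := by
    have hpos : 0 < 18 * (bb n k * bb n k) := by positivity
    have := Nat.lt_mul_div_succ n hpos
    unfold gg at h3 ⊢
    calc n ≤ 18 * (bb n k * bb n k) * (n / (18 * (bb n k * bb n k)) + 1) := this.le
      _ ≤ 18 * (bb n k * bb n k) * (n / (18 * (bb n k * bb n k)) +
          n / (18 * (bb n k * bb n k))) := by gcongr
      _ = _ := by ring
  have e2 : gg n k * bb n k ≤ 64 * nu n k := by
    have : 1 * 2 ^ 18 ≤ gg n k * bb n k := Nat.mul_le_mul h3 h1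
    unfold nu
    omega
  have e3 : n ≤ 2304 * (bb n k * nu n k) := by
    calc n ≤ 36 * (bb n k * bb n k) * gg n k := e1
      _ = 36 * bb n k * (gg n k * bb n k) := by ring
      _ ≤ 36 * bb n k * (64 * nu n k) := by gcongr
      _ = 2304 * (bb n k * nu n k) := by ring
  have e4 : kap n k ≤ 128 * tt n k := by
    unfold tt
    omega
  have e5 : n * kap n k ≤ 4000000 * (k * nu n k) := by
    calc n * kap n k ≤ 2304 * (bb n k * nu n k) * (128 * tt n k) := Nat.mul_le_mul e3 e4
      _ = 2304 * 128 * (bb n k * tt n k) * nu n k := by ring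
      _ ≤ 2304 * 128 * (13 * k) * nu n k := by gcongr
      _ = 3833856 * (k * nu n k) := by ring
      _ ≤ 4000000 * (k * nu n k) := by gcongr; norm_num
  have e6 := log_le h64 hn
  have hk0 : (0 : ℝ) < k := by exact_mod_cast hkpos
  rw [div_le_iff₀ hk0]
  calc (n : ℝ) * Real.log (k / Real.log n) ≤ n * kap n k := by gcongr
    _ ≤ 4000000 * (k * nu n k) := by exact_mod_cast e5
    _ = 4000000 * nu n k * k := by ring

/-- when there is no room -/
theorem small_case (h64 : 64 ≤ kap n k) (hn : 1 ≤ Real.log n) (hg : gg n k = 0) :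
    (n : ℝ) * Real.log (k / Real.log n) / k ≤ 10000 * Real.sqrt n := by
  have hn0 : 0 < n := by
    rcases Nat.eq_zero_or_pos n with h | h
    · rw [h] at hn
      norm_num at hn
    · exact h
  have hL : 1 ≤ Nat.size n := Nat.size_pos.2 hn0
  have hb := bb_le h64 hL
  have hkpos : 0 < k := lt_of_lt_of_le (Nat.mul_pos (by positivity) hL) (k_ge h64)
  have hbpos : 0 < bb n k := bb_pos n k
  have h1 : n < 18 * (bb n k * bb n k) := by
    unfold gg at hg
    rwa [Nat.div_eq_zero_iff_lt (by positivity)] at hg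
  have e4 : kap n k ≤ 128 * tt n k := by
    unfold tt
    omega
  have e6 := log_le h64 hn
  have hs : Real.sqrt n ≤ 5 * bb n k := by
    rw [Real.sqrt_le_left (by positivity)]
    have h2 : (n : ℝ) ≤ 18 * (bb n k * bb n k) := by exact_mod_cast h1.le
    nlinarith [sq_nonneg (bb n k : ℝ)]
  have hk0 : (0 : ℝ) < k := by exact_mod_cast hkpos
  have hnn : Real.sqrt n * Real.sqrt n = n := Real.mul_self_sqrt (Nat.cast_nonneg _)
  have hs0 : 0 ≤ Real.sqrt n := Real.sqrt_nonneg _
  rw [div_le_iff₀ hk0]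
  have e7 : Real.log (k / Real.log n) ≤ 128 * tt n k := e6.trans (by exact_mod_cast e4)
  have e8 : (bb n k : ℝ) * tt n k ≤ 13 * k := by exact_mod_cast hb
  calc (n : ℝ) * Real.log (k / Real.log n) ≤ n * (128 * tt n k) := by gcongr
    _ = Real.sqrt n * Real.sqrt n * (128 * tt n k) := by rw [hnn]
    _ ≤ Real.sqrt n * (5 * bb n k) * (128 * tt n k) := by gcongr
    _ = Real.sqrt n * (640 * (bb n k * tt n k)) := by ring
    _ ≤ Real.sqrt n * (640 * (13 * k)) := by gcongr
    _ = 8320 * (Real.sqrt n * k) := by ring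
    _ ≤ 10000 * (Real.sqrt n * k) := by gcongr; norm_num
    _ = 10000 * Real.sqrt n * k := by ring

end Vale.Agent.P336.H742.NumK
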