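import Vale.Agent.P336.H742.Final
import Vale.Agent.P336.H742.FanIn
import Vale.Agent.P336.H742.NumericsK

/-!
# P336: the lower bound `2 ^ (c n log k / k)` for bottom fan-in `k`
-/

namespace Vale.Agent.P336.H742

open Filter

/-- The circuit lower bound, for one `n` and one `k`. -/
theorem size_ge {n k : ℕ} (h : NumK.Hyp n k) (C : Circuit n) (hC : ∀ i, (C.lits i).encard ≤ k)
    (hcomp : (∀ x, C.Accepts x ↔ slice lang n x = true) ∨
      (∀ x, C.Accepts x ↔ slice lang n x = false)) : 2 ^ NumK.nu n k ≤ (C.size : ℝ) := by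
  have hcard : Fintype.card (Fin (NumK.gg n k) × (Fin (NumK.bb n k) ⊕ Fin (NumK.bb n k))) =
      NumK.NN n k := by
    rw [Fintype.card_prod, Fintype.card_sum, Fintype.card_fin, Fintype.card_fin, NumK.NN]
    ring
  obtain ⟨a, ha⟩ := corr_seed (G := Fin (NumK.gg n k)) (U := Fin (NumK.bb n k))
    (t := NumK.tt n k) (K := NumK.KK n k) (b := NumK.bb n k) (k := k) (n := NumK.nm n k)
    (Q := NumK.QQ n k) (s := NumK.ss n k) (NumK.tt_pos h) (NumK.bb_pos n k) (NumK.bt_ge h)
    (even_two_mul _) (by rw [hcard]; exact NumK.union h) (NumK.th_pos h) (NumK.th_le n k)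
    (NumK.th_eta n k) (δ := 1 / 2 ^ (NumK.nu n k + 3))
    (by rw [Fintype.card_fin, Fintype.card_fin]; exact NumK.delta_le h)
  have hlen : codeLen (NumK.gg n k) (NumK.bb n k) (NumK.bb n k) ≤ n := NumK.space n k
  have hδ : (1 : ℝ) / 2 ^ (NumK.nu n k + 3) ≤ 1 / 2 := by
    apply one_div_le_one_div_of_le (by norm_num)
    calc (2 : ℝ) = 2 ^ 1 := by norm_num
      _ ≤ 2 ^ (NumK.nu n k + 3) := pow_le_pow_right₀ (by norm_num) (by omega)
  have h1 := size_lang_of_hB a hlen hδ ha C hC hcomp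
  rw [mul_one_div, le_div_iff₀ (by positivity), pow_add] at h1
  have h2 : (0 : ℝ) ≤ 2 ^ NumK.nu n k := by positivity
  linarith

/-- **The lower bound for bottom fan-in `k`**. -/
theorem fanin : ∃ c : ℝ, 0 < c ∧ ∃ C₀ : ℝ, ∀ᶠ n : ℕ in atTop,
    ∀ k : ℕ, C₀ * Real.log n ≤ k → ∀ C : Circuit n, (∀ i, (C.lits i).encard ≤ k) →
      ((∀ x, C.Accepts x ↔ slice lang n x = true) ∨
        (∀ x, C.Accepts x ↔ slice lang n x = false)) →
      (2 : ℝ) ^ (c * (n * Real.log (k / Real.log n) / k)) ≤ C.size := by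
  obtain ⟨c, hc, hg⟩ := growth
  refine ⟨min (c / 10000) (1 / 4000000), by positivity, 2 ^ 65, ?_⟩
  have hnat : Tendsto (fun n : ℕ => (n : ℝ)) atTop atTop := tendsto_natCast_atTop_atTop
  have hlog : Tendsto (fun n : ℕ => Real.log n) atTop atTop :=
    Real.tendsto_log_atTop.comp hnat
  filter_upwards [hg, Filter.eventually_ge_atTop ((2 ^ 2 ^ 11) * (2 ^ 2 ^ 11)),
    hlog.eventually_ge_atTop 4] with n h1 h2 h3
  intro k hk C hC hcomp
  have hlog0 : (0 : ℝ) < Real.log n := by linarith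
  have hlog1 : (1 : ℝ) ≤ Real.log n := by linarith
  have hn0 : 0 < n := by
    rcases Nat.eq_zero_or_pos n with h | h
    · rw [h] at h3
      norm_num at h3
    · exact h
  have hs1 : 1 ≤ Nat.size n := Nat.size_pos.2 hn0
  have hsz : (Nat.size n : ℝ) ≤ 3 * Real.log n := by
    have h4 : 2 ^ (Nat.size n - 1) ≤ n := Nat.lt_size.1 (by omega)
    have h5 : ((Nat.size n - 1 : ℕ) : ℝ) * Real.log 2 ≤ Real.log n := by
      rw [← Real.log_pow]
      exact Real.log_le_log (by positivity) (by exact_mod_cast h4)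
    rw [Nat.cast_sub hs1] at h5
    push_cast at h5
    have h6 : (0.69 : ℝ) ≤ Real.log 2 := by linarith [Real.log_two_gt_d9]
    have h8 : (0 : ℝ) ≤ Nat.size n - 1 := by
      have : (1 : ℝ) ≤ Nat.size n := by exact_mod_cast hs1
      linarith
    have h9 : ((Nat.size n : ℝ) - 1) * 0.69 ≤ (Nat.size n - 1) * Real.log 2 := by gcongr
    linarith
  have hκ : 64 ≤ NumK.kap n k := by
    unfold NumK.kap
    refine Nat.lt_size.2 ((Nat.le_div_iff_mul_le hs1).2 ?_)
    have h4 : (2 : ℝ) ^ 63 * Nat.size n ≤ k := by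
      calc (2 : ℝ) ^ 63 * Nat.size n ≤ 2 ^ 63 * (3 * Real.log n) := by gcongr
        _ ≤ 2 ^ 65 * Real.log n := by nlinarith
        _ ≤ k := hk
    exact_mod_cast h4
  have hk1 : (1 : ℝ) ≤ k / Real.log n := by
    rw [le_div_iff₀ hlog0]
    calc 1 * Real.log n ≤ 2 ^ 65 * Real.log n := by gcongr; norm_num
      _ ≤ k := hk
  have hX0 : 0 ≤ (n : ℝ) * Real.log (k / Real.log n) / k :=
    div_nonneg (mul_nonneg (Nat.cast_nonneg _) (Real.log_nonneg hk1)) (Nat.cast_nonneg _)
  by_cases hgk : NumK.gg n k = 0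
  · -- large `k`
    have hS : 2 ^ 2 ^ 11 ≤ Nat.sqrt n := Nat.le_sqrt.2 h2
    have hsz : 12 ≤ Nat.size (Nat.size (Nat.sqrt n)) := by
      have h3 := size_large hS
      exact size_large (k := 11) h3.le
    obtain ⟨h4, h5⟩ := S3_lang_ge hsz
    have h6 : 2 ^ Num.nu (Nat.sqrt n) ≤ C.size := by
      rcases hcomp with hcomp | hcomp
      · exact h4.trans (S3_le hcomp)
      · refine h5.trans (S3_le fun x => ?_)
        rw [hcomp]
        simp
    have h7 : (2 : ℝ) ^ (c * Real.sqrt (n * Real.log n)) ≤ C.size :=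
      h1.trans (by exact_mod_cast h6)
    refine le_trans (Real.rpow_le_rpow_of_exponent_le (by norm_num) ?_) h7
    have h8 := NumK.small_case hκ hlog1 hgk
    have h9 : Real.sqrt n ≤ Real.sqrt (n * Real.log n) := by
      apply Real.sqrt_le_sqrt
      exact le_mul_of_one_le_right (Nat.cast_nonneg _) hlog1
    calc min (c / 10000) (1 / 4000000) * (n * Real.log (k / Real.log n) / k)
        ≤ c / 10000 * (n * Real.log (k / Real.log n) / k) :=
          mul_le_mul_of_nonneg_right (min_le_left _ _) hX0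
      _ ≤ c / 10000 * (10000 * Real.sqrt n) := mul_le_mul_of_nonneg_left h8 (by positivity)
      _ = c * Real.sqrt n := by ring
      _ ≤ c * Real.sqrt (n * Real.log n) := by gcongr
  · have hyp : NumK.Hyp n k := ⟨hκ, Nat.one_le_iff_ne_zero.2 hgk⟩
    have h4 := size_ge hyp C hC hcomp
    refine le_trans ?_ h4
    rw [← Real.rpow_natCast]
    refine Real.rpow_le_rpow_of_exponent_le (by norm_num) ?_
    have h5 := NumK.nu_ge hyp hlog1
    calc min (c / 10000) (1 / 4000000) * (n * Real.log (k / Real.log n) / k)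
        ≤ 1 / 4000000 * (n * Real.log (k / Real.log n) / k) :=
          mul_le_mul_of_nonneg_right (min_le_right _ _) hX0
      _ ≤ 1 / 4000000 * (4000000 * NumK.nu n k) := by gcongr
      _ = NumK.nu n k := by ring

/-- **Bottom fan-in `k`**, for every `k ≥ C₀ log n` at the same time. -/
theorem mainK : ∃ L : Set (List Bool), InP L ∧ ∃ c : ℝ, 0 < c ∧ ∃ C₀ : ℝ,
    ∀ᶠ n : ℕ in Filter.atTop, ∀ k : ℕ, C₀ * Real.log n ≤ k →
      ∀ C : Circuit n, (∀ i, (C.lits i).encard ≤ k) →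
        ((∀ x, C.Accepts x ↔ slice L n x = true) ∨ (∀ x, C.Accepts x ↔ slice L n x = false)) →
        (2 : ℝ) ^ (c * (n * Real.log (k / Real.log n) / k)) ≤ C.size := by
  obtain ⟨c, hc, C₀, h⟩ := fanin
  exact ⟨lang, inP_lang, c, hc, C₀, h⟩

end Vale.Agent.P336.H742
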