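import Vale.Agent.P336.H792.Numerics

/-!
# P336: the parameters of the stronger bound
-/

namespace Vale.Agent.P336.H742.Num

/-- the slowly growing parameter -/
def tau (S : ℕ) : ℕ := Nat.sqrt (Nat.size S / 64)

/-- number of groups, and width of the narrow clauses -/
def gg (S : ℕ) : ℕ := tau S * tau S

/-- half the size of the groups -/
def mm (S : ℕ) : ℕ := S / (8 * tau S)

/-- size of the blocks -/
def bb (S : ℕ) : ℕ := S / tau S

/-- number of blocks -/
def NN (S : ℕ) : ℕ := 2 * (gg S * mm S)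

/-- the exponent of the lower bound -/
def nu (S : ℕ) : ℕ := S / 256 * tau S

/-- width of the clauses -/
def kk (S : ℕ) : ℕ := bb S * gg S / 12

/-- the moment -/
def nm (S : ℕ) : ℕ := 2 * (S / (1024 * tau S))

/-- exponent of the union bound divided by the moment -/
def QQ (S : ℕ) : ℕ := tau S * (S / 512)

/-- length of the chains -/
def ss (S : ℕ) : ℕ := (nu S + 6) / gg S + 1

/-- the number of clauses of the sparse formulas -/
def KK (S : ℕ) : ℕ := NN S * 8 ^ gg S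

/-- Basic facts about the parameters. -/
structure Basic (S : ℕ) : Prop where
  hμ : 12 ≤ Nat.size (Nat.size S)
  hL1 : 128 * Nat.size (Nat.size S) ≤ Nat.size S
  hLμ : Nat.size S < 2 ^ Nat.size (Nat.size S)
  hS0 : 2 ^ (Nat.size S - 1) ≤ S
  hSL : S < 2 ^ Nat.size S
  hτ : 1 ≤ tau S
  hτL : gg S * 64 ≤ Nat.size S

theorem basic {S : ℕ} (hS : 12 ≤ Nat.size (Nat.size S)) : Basic S := by
  have h := P336.Num.basic hS
  refine ⟨h.hμ, h.hL1, h.hLμ, h.hS0, h.hSL, ?_, ?_⟩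
  · unfold tau
    rw [Nat.le_sqrt, Nat.le_div_iff_mul_le (by omega)]
    have := h.hL1
    omega
  · have h1 : tau S * tau S ≤ Nat.size S / 64 := Nat.sqrt_le _
    exact (Nat.mul_le_mul_right _ h1).trans (Nat.div_mul_le_self _ _)

theorem poly_le {S : ℕ} (h : Basic S) :
    2 ^ 40 * Nat.size S ^ 4 * 2 ^ (Nat.size S / 4) ≤ S :=
  P336.Num.poly_le' h.hμ h.hL1 h.hLμ h.hS0

/-- `τ² ≤ L`. -/
theorem tt_le {S : ℕ} (h : Basic S) : tau S * tau S ≤ Nat.size S := by
  have h1 := h.hτL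
  unfold gg at h1
  omega

theorem L_le {S : ℕ} (h : Basic S) : 2 ^ 40 * Nat.size S ≤ S := by
  have h1 := poly_le h
  have h2 : 1 ≤ Nat.size S := by have := h.hL1; have := h.hμ; omega
  have h3 : Nat.size S ≤ Nat.size S ^ 4 := Nat.le_self_pow (by norm_num) _
  have h4 : 1 ≤ 2 ^ (Nat.size S / 4) := Nat.one_le_two_pow
  calc 2 ^ 40 * Nat.size S = 2 ^ 40 * Nat.size S * 1 := by ring
    _ ≤ 2 ^ 40 * Nat.size S ^ 4 * 2 ^ (Nat.size S / 4) := by gcongr
    _ ≤ S := h1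

theorem tau_le {S : ℕ} (h : Basic S) : 2 ^ 40 * tau S ≤ S := by
  have h1 := L_le h
  have h2 := tt_le h
  have h3 := h.hτ
  nlinarith

/-- space -/
theorem space {S : ℕ} (h : Basic S) :
    gg S * (2 * (mm S * (2 * bb S + 2) + 2) + (mm S * mm S * 4 + 2)) ≤ S * S := by
  have h1 := tau_le h
  have h2 := h.hτ
  unfold gg
  have h3 : 8 * (tau S * mm S) ≤ S := by
    have := Nat.mul_div_le S (8 * tau S)
    unfold mm
    linarith
  have h4 : tau S * bb S ≤ S := Nat.mul_div_le S (tau S)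
  generalize tau S = τ at *
  generalize mm S = m at *
  generalize bb S = b at *
  have e : τ * τ * (2 * (m * (2 * b + 2) + 2) + (m * m * 4 + 2)) =
      4 * ((τ * m) * (τ * b)) + 4 * (τ * (τ * m)) + 4 * ((τ * m) * (τ * m)) + 6 * (τ * τ) := by
    ring
  rw [e]
  have h5 : 8 * ((τ * m) * (τ * b)) ≤ S * S := by
    calc 8 * ((τ * m) * (τ * b)) = (8 * (τ * m)) * (τ * b) := by ring
      _ ≤ S * S := Nat.mul_le_mul h3 h4
  have h6 : 64 * ((τ * m) * (τ * m)) ≤ S * S := by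
    calc 64 * ((τ * m) * (τ * m)) = (8 * (τ * m)) * (8 * (τ * m)) := by ring
      _ ≤ S * S := Nat.mul_le_mul h3 h3
  have h7 : 64 * (τ * (τ * m)) ≤ S * S := by
    calc 64 * (τ * (τ * m)) = (8 * τ) * (8 * (τ * m)) := by ring
      _ ≤ S * S := Nat.mul_le_mul (by omega) h3
  have h8 : 64 * (τ * τ) ≤ S * S := by
    calc 64 * (τ * τ) = (8 * τ) * (8 * τ) := by ring
      _ ≤ S * S := Nat.mul_le_mul (by omega) (by omega)
  omega

/-- width -/
theorem width {S : ℕ} (h : Basic S) : 2 * nu S + 3 ≤ kk S := by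
  have h1 := tau_le h
  have h2 := h.hτ
  unfold nu kk gg bb
  rw [Nat.le_div_iff_mul_le (by norm_num)]
  have h3 : S < tau S * (S / tau S) + tau S := by
    have := Nat.lt_mul_div_succ S h2
    simpa [mul_add] using this
  have h4 : 256 * (S / 256) ≤ S := Nat.mul_div_le S 256
  generalize tau S = τ at *
  generalize S / τ = b at *
  generalize S / 256 = c at *
  have h5 : 2 * (τ * b) ≥ S := by omega
  have h6 : 24 * c + 36 ≤ b * τ := by
    have : b * τ = τ * b := mul_comm _ _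
    omega
  calc (2 * (c * τ) + 3) * 12 = 24 * c * τ + 36 := by ring
    _ ≤ 24 * c * τ + 36 * τ := by omega
    _ = (24 * c + 36) * τ := by ring
    _ ≤ (b * τ) * τ := Nat.mul_le_mul_right _ h6
    _ = b * (τ * τ) := by ring

theorem mm_le {S : ℕ} : 8 * (tau S * mm S) ≤ S := by
  have := Nat.mul_div_le S (8 * tau S)
  unfold mm
  linarith

theorem NN_le (S : ℕ) : 4 * NN S ≤ tau S * S := by
  have h3 := mm_le (S := S)
  unfold NN gg
  calc 4 * (2 * (tau S * tau S * mm S)) = tau S * (8 * (tau S * mm S)) := by ring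
    _ ≤ tau S * S := Nat.mul_le_mul_left _ h3

theorem NN_lt {S : ℕ} (h : Basic S) : 1 + 2 * NN S ≤ 2 ^ (2 * Nat.size S) := by
  have h1 := NN_le S
  have h2 := tau_le h
  have h3 := h.hSL
  have h4 := h.hτ
  have h5 : 4 * NN S ≤ S * S := h1.trans (Nat.mul_le_mul_right _ (by omega))
  have h6 : S * S ≤ 2 ^ Nat.size S * 2 ^ Nat.size S := Nat.mul_le_mul h3.le h3.le
  have h7 : 2 ≤ S := by omega
  have h8 : 2 * 2 ≤ S * S := Nat.mul_le_mul h7 h7
  calc 1 + 2 * NN S ≤ S * S := by omega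
    _ ≤ 2 ^ Nat.size S * 2 ^ Nat.size S := h6
    _ = 2 ^ (2 * Nat.size S) := by rw [two_mul, pow_add]

/-- the moment times its exponent -/
theorem nmQQ_ge {S : ℕ} (h : Basic S) : 2 * (S * S) ≤ 2 ^ 21 * (nm S * QQ S) := by
  have h1 := tau_le h
  have h2 := h.hτ
  have h3 : S ≤ 2048 * (tau S * (S / (1024 * tau S))) := by
    have := Nat.lt_mul_div_succ S (b := 1024 * tau S) (by omega)
    rw [mul_add, mul_one, mul_assoc] at this
    omega
  have h4 : S ≤ 1024 * (S / 512) := by omega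
  unfold nm QQ
  calc 2 * (S * S) ≤ 2 * ((2048 * (tau S * (S / (1024 * tau S)))) * (1024 * (S / 512))) := by
        gcongr
    _ = 2 ^ 21 * (2 * (S / (1024 * tau S)) * (tau S * (S / 512))) := by ring

theorem KK_le {S : ℕ} (h : Basic S) : KK S ≤ NN S * 2 ^ (Nat.size S / 4) := by
  have h1 := h.hτL
  unfold KK
  refine Nat.mul_le_mul_left _ ?_
  rw [show (8 : ℕ) = 2 ^ 3 by norm_num, ← pow_mul]
  exact Nat.pow_le_pow_right (by norm_num) (by omega)

/-- union bound -/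
theorem union {S : ℕ} (h : Basic S) :
    4 ^ NN S * (1 + (1 + 2 * NN S) ^ gg S) ^ KK S < 2 ^ (nm S * QQ S) := by
  have hK := KK_le h
  have hp := poly_le h
  have hN := NN_lt h
  have hN4 := NN_le S
  have htt : gg S ≤ Nat.size S := tt_le h
  have hq := nmQQ_ge h
  have hτ1 := h.hτ
  have hτL : tau S ≤ Nat.size S := (Nat.le_mul_of_pos_left _ hτ1).trans (tt_le h)
  have hS0 : 0 < S := by
    have := tau_le h
    omega
  have hL1 : 1 ≤ Nat.size S := hτ1.trans hτL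
  generalize KK S = K at *
  generalize NN S = N at *
  generalize gg S = t at *
  generalize tau S = τ at *
  generalize Nat.size S = L at *
  generalize nm S * QQ S = q at *
  have h1 : 1 + (1 + 2 * N) ^ t ≤ 2 ^ (3 * L ^ 2) := by
    have h2 : (1 + 2 * N) ^ t ≤ 2 ^ (2 * L ^ 2) := by
      calc (1 + 2 * N) ^ t ≤ (2 ^ (2 * L)) ^ t := Nat.pow_le_pow_left hN t
        _ = 2 ^ (2 * L * t) := by rw [← pow_mul]
        _ ≤ 2 ^ (2 * L ^ 2) := Nat.pow_le_pow_right (by norm_num) (by nlinarith)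
    have h3 : 1 ≤ 2 ^ (2 * L ^ 2) := Nat.one_le_two_pow
    calc 1 + (1 + 2 * N) ^ t ≤ 2 ^ (2 * L ^ 2) + 2 ^ (2 * L ^ 2) := Nat.add_le_add h3 h2
      _ = 2 ^ (2 * L ^ 2 + 1) := by rw [pow_succ]; ring
      _ ≤ 2 ^ (3 * L ^ 2) := Nat.pow_le_pow_right (by norm_num) (by nlinarith)
  have h2 : 1 ≤ 2 ^ (L / 4) := Nat.one_le_two_pow
  calc 4 ^ N * (1 + (1 + 2 * N) ^ t) ^ K ≤ 2 ^ (2 * N) * (2 ^ (3 * L ^ 2)) ^ K := by
        have : (4 : ℕ) ^ N = 2 ^ (2 * N) := by rw [pow_mul]; norm_num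
        rw [this]
        gcongr
    _ = 2 ^ (2 * N + 3 * L ^ 2 * K) := by rw [← pow_mul, ← pow_add]
    _ < 2 ^ q := by
      refine Nat.pow_lt_pow_right (by norm_num) ?_
      have h4 : 2 * N + 3 * L ^ 2 * K ≤ 5 * (N * L ^ 2 * 2 ^ (L / 4)) := by
        have h5 : 1 ≤ L ^ 2 * 2 ^ (L / 4) := Nat.mul_pos (by positivity) h2
        have h6 : N * 1 ≤ N * (L ^ 2 * 2 ^ (L / 4)) := Nat.mul_le_mul_left _ h5
        have h7 : 3 * L ^ 2 * K ≤ 3 * L ^ 2 * (N * 2 ^ (L / 4)) := Nat.mul_le_mul_left _ hK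
        have h8 : 3 * L ^ 2 * (N * 2 ^ (L / 4)) = 3 * (N * L ^ 2 * 2 ^ (L / 4)) := by ring
        have h9 : N * (L ^ 2 * 2 ^ (L / 4)) = N * L ^ 2 * 2 ^ (L / 4) := by ring
        omega
      have h5 : 4 * (N * L ^ 2 * 2 ^ (L / 4)) ≤ S * (L ^ 4 * 2 ^ (L / 4)) := by
        calc 4 * (N * L ^ 2 * 2 ^ (L / 4)) = (4 * N) * (L ^ 2 * 2 ^ (L / 4)) := by ring
          _ ≤ (τ * S) * (L ^ 2 * 2 ^ (L / 4)) := Nat.mul_le_mul_right _ hN4
          _ ≤ (L * S) * (L ^ 2 * 2 ^ (L / 4)) := by gcongr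
          _ = S * (L ^ 3 * 2 ^ (L / 4)) := by ring
          _ ≤ S * (L ^ 4 * 2 ^ (L / 4)) := by
            apply Nat.mul_le_mul_left
            apply Nat.mul_le_mul_right
            exact Nat.pow_le_pow_right hL1 (by norm_num)
      have h6 : 2 ^ 40 * (4 * (N * L ^ 2 * 2 ^ (L / 4))) ≤ S * S := by
        calc 2 ^ 40 * (4 * (N * L ^ 2 * 2 ^ (L / 4))) ≤ 2 ^ 40 * (S * (L ^ 4 * 2 ^ (L / 4))) :=
              Nat.mul_le_mul_left _ h5
          _ = S * (2 ^ 40 * L ^ 4 * 2 ^ (L / 4)) := by ring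
          _ ≤ S * S := Nat.mul_le_mul_left _ hp
      have h7 : 0 < S * S := Nat.mul_pos hS0 hS0
      omega

/-- the length of the chains -/
theorem chain_len {S : ℕ} (h : Basic S) :
    nu S + 6 ≤ gg S * ss S ∧ gg S * ss S ≤ nu S + 6 + gg S := by
  have ht1 : 1 ≤ gg S := Nat.mul_pos h.hτ h.hτ
  unfold ss
  have h1 := Nat.lt_mul_div_succ (nu S + 6) ht1
  have h2 := Nat.mul_div_le (nu S + 6) (gg S)
  constructor
  · exact h1.le
  · rw [mul_add, mul_one]
    omega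

/-- the exponent of the correlation bound -/
theorem expo {S : ℕ} (h : Basic S) :
    gg S * ss S + (gg S * nm S + QQ S) + gg S + (nu S + 6) ≤ 2 * (gg S * mm S / 11) := by
  have h0 := (chain_len h).2
  have h1 := tau_le h
  have h2 := h.hτ
  have h3 := tt_le h
  have h4 := L_le h
  generalize gg S * ss S = X at *
  revert h0
  unfold nm QQ nu mm gg
  intro h0
  have h5 : S < 8 * (tau S * (S / (8 * tau S))) + 8 * tau S := by
    have := Nat.lt_mul_div_succ S (b := 8 * tau S) (by omega)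
    rw [mul_add, mul_one, mul_assoc] at this
    exact this
  have h6 : 1024 * (tau S * (S / (1024 * tau S))) ≤ S := by
    have := Nat.mul_div_le S (1024 * tau S)
    rw [mul_assoc] at this
    exact this
  have h7 : 512 * (S / 512) ≤ S := Nat.mul_div_le S 512
  have h8 : 256 * (S / 256) ≤ S := Nat.mul_div_le S 256
  generalize tau S = τ at *
  generalize S / (8 * τ) = m at *
  generalize S / (1024 * τ) = a at *
  generalize S / 512 = c at *
  generalize S / 256 = d at *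
  have e1 : 1024 * (τ * τ * (2 * a)) ≤ 2 * (τ * S) := by
    calc 1024 * (τ * τ * (2 * a)) = 2 * (τ * (1024 * (τ * a))) := by ring
      _ ≤ 2 * (τ * S) := by gcongr
  have e2 : 512 * (τ * c) ≤ τ * S := by
    calc 512 * (τ * c) = τ * (512 * c) := by ring
      _ ≤ τ * S := by gcongr
  have e3 : 256 * (d * τ) ≤ τ * S := by
    calc 256 * (d * τ) = τ * (256 * d) := by ring
      _ ≤ τ * S := by gcongr
  have e4 : τ * S ≤ 8 * (τ * τ * m) + 8 * (τ * τ) := by
    calc τ * S ≤ τ * (8 * (τ * m) + 8 * τ) := by gcongr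
      _ = 8 * (τ * τ * m) + 8 * (τ * τ) := by ring
  have e5 : 2 ^ 40 * (τ * τ) ≤ τ * S := by
    calc 2 ^ 40 * (τ * τ) = τ * (2 ^ 40 * τ) := by ring
      _ ≤ τ * S := by gcongr
  have e6 : 1 ≤ τ * τ := Nat.mul_pos h2 h2
  generalize τ * τ * (2 * a) = x1 at *
  generalize τ * c = x2 at *
  generalize d * τ = x3 at *
  generalize τ * τ * m = x4 at *
  generalize τ * τ = x5 at *
  generalize τ * S = x6 at *
  omega

theorem nu_le_NN {S : ℕ} (h : Basic S) : nu S + 7 ≤ NN S := by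
  have h1 := tau_le h
  have h2 := h.hτ
  unfold NN nu mm gg
  have h5 : S < 8 * (tau S * (S / (8 * tau S))) + 8 * tau S := by
    have := Nat.lt_mul_div_succ S (b := 8 * tau S) (by omega)
    rw [mul_add, mul_one, mul_assoc] at this
    exact this
  have h8 : 256 * (S / 256) ≤ S := Nat.mul_div_le S 256
  generalize tau S = τ at *
  generalize S / (8 * τ) = m at *
  generalize S / 256 = d at *
  have e3 : 256 * (d * τ) ≤ τ * S := by
    calc 256 * (d * τ) = τ * (256 * d) := by ring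
      _ ≤ τ * S := by gcongr
  have e4 : τ * S ≤ 8 * (τ * τ * m) + 8 * (τ * τ) := by
    calc τ * S ≤ τ * (8 * (τ * m) + 8 * τ) := by gcongr
      _ = 8 * (τ * τ * m) + 8 * (τ * τ) := by ring
  have e5 : 2 ^ 40 * (τ * τ) ≤ τ * S := by
    calc 2 ^ 40 * (τ * τ) = τ * (2 ^ 40 * τ) := by ring
      _ ≤ τ * S := by gcongr
  have e6 : 1 ≤ τ * τ := Nat.mul_pos h2 h2
  generalize d * τ = x3 at *
  generalize τ * τ * m = x4 at *
  generalize τ * τ = x5 at *
  generalize τ * S = x6 at *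
  omega

/-- the density threshold -/
noncomputable def th (S : ℕ) : ℝ := 1 - 1 / 8 ^ gg S

theorem th_pos {S : ℕ} (h : Basic S) : 0 < th S := by
  have ht1 : 1 ≤ gg S := Nat.mul_pos h.hτ h.hτ
  unfold th
  have h1 : (1 : ℝ) < 8 ^ gg S := one_lt_pow₀ (by norm_num) (by omega)
  have h2 : (1 : ℝ) / 8 ^ gg S < 1 := by
    rw [div_lt_one (by positivity)]
    exact h1
  linarith

theorem th_le (S : ℕ) : th S ≤ 1 := by
  unfold th
  have h1 : (0 : ℝ) ≤ 1 / 8 ^ gg S := by positivity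
  linarith

theorem th_eta (S : ℕ) : (1 - th S) * 3 ^ gg S ≤ (1 / 2) ^ gg S := by
  unfold th
  have h1 : (1 - (1 - 1 / 8 ^ gg S)) * (3 : ℝ) ^ gg S = (3 / 8) ^ gg S := by
    rw [div_pow]
    ring
  rw [h1]
  exact pow_le_pow_left₀ (by norm_num) (by norm_num) _

theorem th_pow (S : ℕ) : th S ^ KK S ≤ (1 / 2) ^ NN S := by
  have h1 : th S ≤ Real.exp (-(1 / 8 ^ gg S)) := by
    have := Real.add_one_le_exp (-(1 / (8 : ℝ) ^ gg S))
    unfold th
    linarith
  have h0 : 0 ≤ th S := by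
    unfold th
    have h2 : (1 : ℝ) / 8 ^ gg S ≤ 1 := by
      rw [div_le_one (by positivity)]
      exact one_le_pow₀ (by norm_num)
    linarith
  have h8 : (8 : ℝ) ^ gg S ≠ 0 := by positivity
  calc th S ^ KK S ≤ Real.exp (-(1 / 8 ^ gg S)) ^ KK S := pow_le_pow_left₀ h0 h1 _
    _ = Real.exp (-1) ^ NN S := by
        rw [← Real.exp_nat_mul, ← Real.exp_nat_mul]
        congr 1
        unfold KK
        push_cast
        field_simp
    _ ≤ (1 / 2) ^ NN S := by
        refine pow_le_pow_left₀ (Real.exp_pos _).le ?_ _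
        rw [Real.exp_neg, ← one_div]
        exact one_div_le_one_div_of_le (by norm_num) (by
          have := Real.add_one_le_exp (1 : ℝ)
          linarith)

/-- the correlation bound -/
theorem delta_le {S : ℕ} (h : Basic S) :
    2 * (2 ^ (gg S * ss S + (gg S * nm S + QQ S) + gg S) * (7 / 8) ^ (gg S * mm S) +
      (2 * th S ^ KK S + (1 / 2) ^ (gg S * ss S))) ≤ 1 / 2 ^ (nu S + 3) := by
  have h1 := expo h
  have h4 := (chain_len h).1
  have h5 := nu_le_NN h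
  have h6 := th_pow S
  generalize gg S * ss S + (gg S * nm S + QQ S) + gg S = x at *
  generalize gg S * ss S = X at *
  generalize gg S * mm S = y at *
  generalize nu S = ν at *
  have h2 : ((7 : ℝ) / 8) ^ y ≤ (1 / 4) ^ (y / 11) := by
    calc ((7 : ℝ) / 8) ^ y ≤ (7 / 8) ^ (11 * (y / 11)) :=
          pow_le_pow_of_le_one (by norm_num) (by norm_num) (Nat.mul_div_le y 11)
      _ = ((7 / 8) ^ 11) ^ (y / 11) := by rw [pow_mul]
      _ ≤ (1 / 4) ^ (y / 11) := pow_le_pow_left₀ (by norm_num) (by norm_num) _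
  have h3 : ((1 : ℝ) / 4) ^ (y / 11) * 2 ^ (2 * (y / 11)) = 1 := by
    rw [pow_mul, ← mul_pow]
    norm_num
  have a1 : 2 ^ x * (7 / 8 : ℝ) ^ y ≤ (1 / 2) ^ (ν + 6) := by
    have e : ((1 : ℝ) / 2) ^ (ν + 6) = 1 / 2 ^ (ν + 6) := by rw [div_pow, one_pow]
    rw [e, le_div_iff₀ (by positivity)]
    calc (2 : ℝ) ^ x * (7 / 8) ^ y * 2 ^ (ν + 6) ≤
          2 ^ x * (1 / 4) ^ (y / 11) * 2 ^ (ν + 6) := by gcongr
      _ = (1 / 4) ^ (y / 11) * 2 ^ (x + (ν + 6)) := by
          rw [pow_add _ x]; ring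
      _ ≤ (1 / 4) ^ (y / 11) * 2 ^ (2 * (y / 11)) := by
          gcongr
          norm_num
      _ = 1 := h3
  have a2 : th S ^ KK S ≤ (1 / 2) ^ (ν + 7) :=
    h6.trans (pow_le_pow_of_le_one (by norm_num) (by norm_num) h5)
  have a3 : (1 / 2 : ℝ) ^ X ≤ (1 / 2) ^ (ν + 6) :=
    pow_le_pow_of_le_one (by norm_num) (by norm_num) h4
  have e1 : (1 : ℝ) / 2 ^ (ν + 3) = 8 * (1 / 2) ^ (ν + 6) := by
    rw [div_pow, one_pow, pow_add, pow_add]
    field_simp
    norm_num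
  have e2 : ((1 : ℝ) / 2) ^ (ν + 7) = 1 / 2 * (1 / 2) ^ (ν + 6) := by
    rw [pow_succ' _ (ν + 6)]
  rw [e1]
  have e3 : (0 : ℝ) ≤ (1 / 2) ^ (ν + 6) := by positivity
  linarith

end Vale.Agent.P336.H742.Num
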