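import Vale.Agent.P336.H567.Expansion

/-!
# P336: the chain expansion of narrow formulas

All restrictions `(A, x)` inside a subcube `(J, y)` are used at the same time.  A narrow formula is
replaced, in each restriction, by a sparse sub-formula such that all other clauses have a small
conditional probability to be false; the error terms live on restrictions from which the
original restriction can be decoded.
-/

set_option linter.unusedSectionVars false

namespace Vale.Agent.P336.H742

open Finset Vale.Agent.P336.Expansion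

noncomputable section

variable {V : Type} [Fintype V] [DecidableEq V]

/-- The clause is not satisfied by the restriction. -/
def Live (C : Cl V) (A : Finset V) (x : V → Bool) : Prop := ∀ v ∈ C.S, v ∉ A → x v = C.c v

theorem fals_next {C : Cl V} {A : Finset V} {x : V → Bool} (h : Live C A x) :
    Fals C (nA C A) (nx C A x) := by
  intro v hv
  refine ⟨by simp [nA, hv], ?_⟩
  unfold nx
  split_ifs with h1
  · rfl
  · exact h v hv fun hA => h1 (mem_inter.2 ⟨hA, hv⟩)

theorem cube_next {C : Cl V} {A : Finset V} {x : V → Bool} (h : Live C A x) :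
    (cube A x).filter (fun z => ∀ v ∈ C.S, z v = C.c v) = cube (nA C A) (nx C A x) := by
  ext z
  simp only [mem_filter, mem_cube, nA, nx, mem_sdiff, mem_inter, not_and, not_not]
  constructor
  · rintro ⟨h1, h2⟩ v hv
    split_ifs with h3
    · exact h2 v h3.2
    · by_cases hA : v ∈ A
      · exact absurd ⟨hA, hv hA⟩ h3
      · exact h1 v hA
  · intro h1
    refine ⟨fun v hA => ?_, fun v hS => ?_⟩
    · have := h1 v (fun h => absurd h hA)
      rwa [if_neg (fun h3 => hA h3.1)] at this
    · have h4 := h1 v (fun _ => hS)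
      split_ifs at h4 with h3
      · exact h4
      · rw [h4]
        exact h v hS fun hA => h3 ⟨hA, hS⟩

theorem val_insert (h : (V → Bool) → ℝ) (C : ℕ → Cl V) {A : Finset V} {x : V → Bool}
    {I : Finset ℕ} {s : ℕ} (hs : s ∉ I) (hw : Live (C s) A x) :
    val h C A x (insert s I) = val h C A x I - val h C (nA (C s) A) (nx (C s) A x) I := by
  have h1 : ∀ z, h z * ∏ i ∈ insert s I, ind (C i) z =
      h z * ∏ i ∈ I, ind (C i) z -
        if ∀ v ∈ (C s).S, z v = (C s).c v then h z * ∏ i ∈ I, ind (C i) z else 0 := by
    intro z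
    rw [prod_insert hs, ind]
    split_ifs with h2
    · ring
    · ring
  unfold Expansion.val
  rw [sum_congr rfl fun z _ => h1 z, sum_sub_distrib, ← cube_next hw, sum_filter]

theorem val_insert_of_not_live (h : (V → Bool) → ℝ) (C : ℕ → Cl V) {A : Finset V} {x : V → Bool}
    {I : Finset ℕ} {s : ℕ} (hs : s ∉ I) (hw : ¬ Live (C s) A x) :
    val h C A x (insert s I) = val h C A x I := by
  refine sum_congr rfl fun z hz => ?_
  unfold Live at hw
  push Not at hw
  obtain ⟨v, hv, hA, hx⟩ := hw
  rw [prod_insert hs, ind, if_neg, one_mul]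
  intro h2
  rw [← h2 v hv, mem_cube.1 hz v hA] at hx
  exact hx rfl

/-- The number of points of the subcube satisfying the clauses `C i`, `i ∈ P`. -/
def cnt (C : ℕ → Cl V) (A : Finset V) (x : V → Bool) (P : Finset ℕ) : ℝ :=
  val (fun _ => 1) C A x P

theorem ind_nonneg (C : Cl V) (z : V → Bool) : 0 ≤ ind C z := by
  unfold ind; split_ifs <;> norm_num

theorem ind_le_one (C : Cl V) (z : V → Bool) : ind C z ≤ 1 := by
  unfold ind; split_ifs <;> norm_num

theorem cnt_nonneg (C : ℕ → Cl V) (A : Finset V) (x : V → Bool) (P : Finset ℕ) :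
    0 ≤ cnt C A x P :=
  sum_nonneg fun _ _ => mul_nonneg zero_le_one (prod_nonneg fun _ _ => ind_nonneg _ _)

theorem cnt_anti (C : ℕ → Cl V) (A : Finset V) (x : V → Bool) {P P' : Finset ℕ} (h : P ⊆ P') :
    cnt C A x P' ≤ cnt C A x P := by
  refine sum_le_sum fun z _ => ?_
  rw [one_mul, one_mul, ← prod_sdiff h]
  have h1 : 0 ≤ ∏ i ∈ P, ind (C i) z := prod_nonneg fun _ _ => ind_nonneg _ _
  have h2 : ∏ i ∈ P' \ P, ind (C i) z ≤ 1 := prod_le_one (fun _ _ => ind_nonneg _ _)
    fun _ _ => ind_le_one _ _
  nlinarith

theorem abs_val_le_cnt {h : (V → Bool) → ℝ} (hh : ∀ z, |h z| ≤ 1) (C : ℕ → Cl V) (A : Finset V)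
    (x : V → Bool) (P : Finset ℕ) : |val h C A x P| ≤ cnt C A x P := by
  refine (abs_sum_le_sum_abs _ _).trans (sum_le_sum fun z _ => ?_)
  have h1 : 0 ≤ ∏ i ∈ P, ind (C i) z := prod_nonneg fun _ _ => ind_nonneg _ _
  rw [abs_mul, abs_of_nonneg h1]
  exact mul_le_mul_of_nonneg_right (hh z) h1

theorem card_cube (A : Finset V) (x : V → Bool) : (cube A x).card = 2 ^ A.card := by
  have h1 : cube A x = Fintype.piFinset fun v => if v ∈ A then (univ : Finset Bool) else {x v} := by
    ext z
    rw [mem_cube, Fintype.mem_piFinset]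
    constructor
    · intro h v
      split_ifs with hv
      · exact mem_univ _
      · rw [mem_singleton]; exact h v hv
    · intro h v hv
      have := h v
      rw [if_neg hv, mem_singleton] at this
      exact this
  rw [h1, Fintype.card_piFinset]
  have h2 : ∀ v : V, (if v ∈ A then (univ : Finset Bool) else {x v}).card =
      if v ∈ A then 2 else 1 := by
    intro v
    split_ifs
    · simp
    · simp
  rw [prod_congr rfl fun v _ => h2 v, prod_ite, prod_const_one, mul_one, prod_const]
  congr 2
  ext v
  simp

theorem cnt_empty (C : ℕ → Cl V) (A : Finset V) (x : V → Bool) :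
    cnt C A x ∅ = 2 ^ A.card := by
  unfold cnt Expansion.val
  simp only [prod_empty, mul_one, sum_const, nsmul_eq_mul, card_cube]
  norm_cast

open Classical in
/-- The children of a restriction: clauses which can be made the first falsified clause. -/
def Ch (C : ℕ → Cl V) (M : ℕ) (A : Finset V) (x : V → Bool) : Finset ℕ :=
  (range (R C M A x)).filter fun j =>
    Live (C j) A x ∧ R C M (nA (C j) A) (nx (C j) A x) = j

/-- The telescoping inequality. -/
theorem tele (h : (V → Bool) → ℝ) (C : ℕ → Cl V) (M : ℕ) (A : Finset V) (x : V → Bool)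
    (P : Finset ℕ) :
    |val h C A x (P ∪ range (R C M A x))| ≤ |val h C A x P| +
      ∑ j ∈ (Ch C M A x).filter (fun j => j ∉ P),
        |val h C (nA (C j) A) (nx (C j) A x) (P ∪ range j)| := by
  classical
  have key : ∀ j ≤ R C M A x, |val h C A x (P ∪ range j)| ≤ |val h C A x P| +
      ∑ l ∈ ((Ch C M A x).filter (fun j => j ∉ P)).filter (· < j),
        |val h C (nA (C l) A) (nx (C l) A x) (P ∪ range l)| := by
    intro j
    induction j with
    | zero =>
      intro _
      simp
    | succ j ih =>
      intro hj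
      have ih := ih (by omega)
      have hmono : ∑ l ∈ ((Ch C M A x).filter (fun j => j ∉ P)).filter (· < j),
            |val h C (nA (C l) A) (nx (C l) A x) (P ∪ range l)| ≤
          ∑ l ∈ ((Ch C M A x).filter (fun j => j ∉ P)).filter (· < j + 1),
            |val h C (nA (C l) A) (nx (C l) A x) (P ∪ range l)| := by
        refine sum_le_sum_of_subset_of_nonneg (fun s hs => ?_) fun s _ _ => abs_nonneg _
        rw [mem_filter] at hs ⊢
        exact ⟨hs.1, by omega⟩
      by_cases hjP : j ∈ P
      · have h1 : P ∪ range (j + 1) = P ∪ range j := by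
          rw [range_add_one, union_insert, insert_eq_self.2 (mem_union_left _ hjP)]
        rw [h1]
        exact ih.trans (add_le_add_right hmono _)
      · have h1 : P ∪ range (j + 1) = insert j (P ∪ range j) := by
          rw [range_add_one, union_insert]
        have h2 : j ∉ P ∪ range j := by
          simp [hjP]
        rw [h1]
        by_cases hL : Live (C j) A x
        · rw [val_insert h C h2 hL]
          have hf := fals_next hL
          have hR' : R C M (nA (C j) A) (nx (C j) A x) ≤ j := R_le_of_fals hf
          rcases hR'.lt_or_eq with hlt | heq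
          · have hz : val h C (nA (C j) A) (nx (C j) A x) (P ∪ range j) = 0 := by
              refine val_eq_zero h C (mem_union_right _ (mem_range.2 hlt)) ?_
              rcases R_spec C M (nA (C j) A) (nx (C j) A x) with h3 | h3
              · have := R_le C M A x
                omega
              · exact h3
            rw [hz, sub_zero]
            exact ih.trans (add_le_add_right hmono _)
          · have hjC : j ∈ (Ch C M A x).filter (fun j => j ∉ P) := by
              rw [mem_filter]
              refine ⟨?_, hjP⟩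
              simp only [Ch, mem_filter, mem_range]
              exact ⟨by omega, hL, heq⟩
            have h3 : ((Ch C M A x).filter (fun j => j ∉ P)).filter (· < j + 1) =
                insert j (((Ch C M A x).filter (fun j => j ∉ P)).filter (· < j)) := by
              ext s
              rw [mem_insert, mem_filter, mem_filter (p := (· < j))]
              constructor
              · rintro ⟨h4, h5⟩
                by_cases hs : s = j
                · exact Or.inl hs
                · exact Or.inr ⟨h4, by omega⟩
              · rintro (h4 | ⟨h4, h5⟩)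
                · rw [h4]; exact ⟨hjC, by omega⟩
                · exact ⟨h4, by omega⟩
            have h4 := abs_sub (val h C A x (P ∪ range j))
              (val h C (nA (C j) A) (nx (C j) A x) (P ∪ range j))
            rw [h3, sum_insert (by simp)]
            linarith
        · rw [val_insert_of_not_live h C h2 hL]
          exact ih.trans (add_le_add_right hmono _)
  have h1 := key _ le_rfl
  have h2 : ((Ch C M A x).filter (fun j => j ∉ P)).filter (· < R C M A x) =
      (Ch C M A x).filter (fun j => j ∉ P) := by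
    refine filter_true_of_mem fun s hs => ?_
    rw [mem_filter, Ch, mem_filter, mem_range] at hs
    exact hs.1.1
  rwa [h2] at h1

/-- The choice of the kept clauses. -/
theorem exists_kept (C : ℕ → Cl V) (A : Finset V) (x : V → Bool) (P : Finset ℕ) (i : ℕ)
    {θ : ℝ} (hθ : 0 < θ) :
    ∃ P' : Finset ℕ, P ⊆ P' ∧ P' ⊆ P ∪ range i ∧
      cnt C A x P' / θ ^ P'.card ≤ cnt C A x P / θ ^ P.card ∧
      ∀ j < i, j ∉ P' → Live (C j) A x →
        cnt C (nA (C j) A) (nx (C j) A x) P' ≤ (1 - θ) * cnt C A x P' := by
  classical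
  set T := (P ∪ range i).powerset.filter fun P' => P ⊆ P' ∧
    cnt C A x P' / θ ^ P'.card ≤ cnt C A x P / θ ^ P.card with hT
  have hne : T.Nonempty := ⟨P, by
    rw [hT, mem_filter, mem_powerset]
    exact ⟨subset_union_left, Subset.rfl, le_rfl⟩⟩
  obtain ⟨P', hP', hmax⟩ := exists_max_image T card hne
  rw [hT, mem_filter, mem_powerset] at hP'
  obtain ⟨h1, h2, h3⟩ := hP'
  refine ⟨P', h2, h1, h3, fun j hj hjP hL => ?_⟩
  by_contra hcon
  push Not at hcon
  have h4 := val_insert (fun _ => 1) C hjP hL
  have h5 : cnt C A x (insert j P') ≤ θ * cnt C A x P' := by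
    unfold cnt at hcon ⊢
    linarith
  have h6 : insert j P' ∈ T := by
    rw [hT, mem_filter, mem_powerset]
    refine ⟨insert_subset (mem_union_right _ (mem_range.2 hj)) h1,
      h2.trans (subset_insert _ _), le_trans ?_ h3⟩
    rw [card_insert_of_notMem hjP, pow_succ, div_le_div_iff₀ (by positivity) (by positivity)]
    calc cnt C A x (insert j P') * θ ^ P'.card ≤ (θ * cnt C A x P') * θ ^ P'.card := by gcongr
      _ = cnt C A x P' * (θ ^ P'.card * θ) := by ring
  have h7 := hmax _ h6
  rw [card_insert_of_notMem hjP] at h7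
  omega

/-- The contribution of the sparse terms of the chains of length `< s`. -/
def EE (C : ℕ → Cl V) (M : ℕ) (ε : Finset V → ℝ) : ℕ → Finset V → (V → Bool) → ℝ
  | 0, _, _ => 0
  | s + 1, A, x => ε A + ∑ j ∈ Ch C M A x, EE C M ε s (nA (C j) A) (nx (C j) A x)

/-- The relative contribution of the small terms. -/
def GG (C : ℕ → Cl V) (M D : ℕ) (θ : ℝ) : ℕ → Finset V → (V → Bool) → ℝ
  | 0, _, _ => 1
  | s + 1, A, x => θ ^ D + (1 - θ) * ∑ j ∈ Ch C M A x,
      GG C M D θ s (nA (C j) A) (nx (C j) A x)

theorem EE_nonneg (C : ℕ → Cl V) (M : ℕ) {ε : Finset V → ℝ} (hε : ∀ A, 0 ≤ ε A) (s : ℕ) :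
    ∀ (A : Finset V) (x : V → Bool), 0 ≤ EE C M ε s A x := by
  induction s with
  | zero => intro A x; exact le_rfl
  | succ s ih => intro A x; exact add_nonneg (hε A) (sum_nonneg fun j _ => ih _ _)

theorem GG_nonneg (C : ℕ → Cl V) (M D : ℕ) {θ : ℝ} (h0 : 0 ≤ θ) (h1 : θ ≤ 1) (s : ℕ) :
    ∀ (A : Finset V) (x : V → Bool), 0 ≤ GG C M D θ s A x := by
  induction s with
  | zero => intro A x; exact zero_le_one
  | succ s ih =>
    intro A x
    exact add_nonneg (pow_nonneg h0 _) (mul_nonneg (by linarith) (sum_nonneg fun j _ => ih _ _))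

/-- **Pointwise chain expansion**. -/
theorem chain_bound {h : (V → Bool) → ℝ} (hh : ∀ z, |h z| ≤ 1) (C : ℕ → Cl V) (M D : ℕ)
    {θ : ℝ} (h0 : 0 < θ) (h1 : θ ≤ 1) {ε : Finset V → ℝ}
    (hε : ∀ (A : Finset V) (x : V → Bool) (P : Finset ℕ), P ⊆ range M → P.card ≤ D →
      |val h C A x P| ≤ ε A) (s : ℕ) :
    ∀ (A : Finset V) (x : V → Bool) (P : Finset ℕ), P ⊆ range M →
      |val h C A x (P ∪ range (R C M A x))| ≤
        EE C M ε s A x + cnt C A x P / θ ^ P.card * GG C M D θ s A x := by
  classical
  have hε0 : ∀ A, 0 ≤ ε A := fun A =>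
    (abs_nonneg _).trans (hε A (fun _ => false) ∅ (empty_subset _) (by simp))
  induction s with
  | zero =>
    intro A x P _
    have h2 := abs_val_le_cnt hh C A x (P ∪ range (R C M A x))
    have h3 : cnt C A x (P ∪ range (R C M A x)) ≤ cnt C A x P := cnt_anti C A x subset_union_left
    have h4 : cnt C A x P ≤ cnt C A x P / θ ^ P.card := by
      rw [le_div_iff₀ (by positivity)]
      exact mul_le_of_le_one_right (cnt_nonneg _ _ _ _) (pow_le_one₀ h0.le h1)
    simp only [EE, GG, zero_add, mul_one]
    linarith
  | succ s ih =>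
    intro A x P hPM
    obtain ⟨P', hPP', hP'P, hm, hch⟩ := exists_kept C A x P (R C M A x) h0
    have hRM : range (R C M A x) ⊆ range M := range_mono (R_le _ _ _ _)
    have hP'M : P' ⊆ range M := hP'P.trans (union_subset hPM hRM)
    have hun : P ∪ range (R C M A x) = P' ∪ range (R C M A x) := by
      apply Subset.antisymm
      · exact union_subset_union_left hPP'
      · exact union_subset hP'P subset_union_right
    have hGn := GG_nonneg C M D h0.le h1 s
    have hEn := EE_nonneg C M hε0 s
    have hS : 0 ≤ ∑ j ∈ Ch C M A x, GG C M D θ s (nA (C j) A) (nx (C j) A x) :=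
      sum_nonneg fun j _ => hGn _ _
    have hSE : 0 ≤ ∑ j ∈ Ch C M A x, EE C M ε s (nA (C j) A) (nx (C j) A x) :=
      sum_nonneg fun j _ => hEn _ _
    have hmm : 0 ≤ cnt C A x P / θ ^ P.card := div_nonneg (cnt_nonneg _ _ _ _) (by positivity)
    simp only [EE, GG]
    by_cases hD : P'.card ≤ D
    · rw [hun]
      refine (tele h C M A x P').trans ?_
      have h2 : ∀ j ∈ (Ch C M A x).filter (fun j => j ∉ P'),
          |val h C (nA (C j) A) (nx (C j) A x) (P' ∪ range j)| ≤
            EE C M ε s (nA (C j) A) (nx (C j) A x) +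
              cnt C A x P / θ ^ P.card * ((1 - θ) *
                GG C M D θ s (nA (C j) A) (nx (C j) A x)) := by
        intro j hj
        rw [mem_filter, Ch, mem_filter, mem_range] at hj
        obtain ⟨⟨hjR, hL, hRj⟩, hjP'⟩ := hj
        have h3 := ih (nA (C j) A) (nx (C j) A x) P' hP'M
        rw [hRj] at h3
        refine h3.trans (add_le_add_right ?_ _)
        rw [← mul_assoc]
        refine mul_le_mul_of_nonneg_right ?_ (hGn _ _)
        have h4 := hch j hjR hjP' hL
        calc cnt C (nA (C j) A) (nx (C j) A x) P' / θ ^ P'.card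
            ≤ ((1 - θ) * cnt C A x P') / θ ^ P'.card := by gcongr
          _ = (1 - θ) * (cnt C A x P' / θ ^ P'.card) := by ring
          _ ≤ (1 - θ) * (cnt C A x P / θ ^ P.card) :=
              mul_le_mul_of_nonneg_left hm (by linarith)
          _ = cnt C A x P / θ ^ P.card * (1 - θ) := by ring
      have h5 : ∑ j ∈ (Ch C M A x).filter (fun j => j ∉ P'),
          |val h C (nA (C j) A) (nx (C j) A x) (P' ∪ range j)| ≤
          ∑ j ∈ Ch C M A x, (EE C M ε s (nA (C j) A) (nx (C j) A x) +
              cnt C A x P / θ ^ P.card * ((1 - θ) *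
                GG C M D θ s (nA (C j) A) (nx (C j) A x))) := by
        refine (sum_le_sum h2).trans (sum_le_sum_of_subset_of_nonneg (filter_subset _ _) ?_)
        intro j _ _
        exact add_nonneg (hEn _ _) (mul_nonneg hmm (mul_nonneg (by linarith) (hGn _ _)))
      rw [sum_add_distrib, ← mul_sum, ← mul_sum] at h5
      have h6 := hε A x P' hP'M hD
      have h7 : 0 ≤ cnt C A x P / θ ^ P.card * θ ^ D := mul_nonneg hmm (pow_nonneg h0.le _)
      rw [mul_add]
      linarith
    · have h2 : |val h C A x (P ∪ range (R C M A x))| ≤ cnt C A x P / θ ^ P.card * θ ^ D := by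
        calc |val h C A x (P ∪ range (R C M A x))| ≤ cnt C A x (P ∪ range (R C M A x)) :=
              abs_val_le_cnt hh C A x _
          _ ≤ cnt C A x P' := cnt_anti C A x hP'P
          _ = cnt C A x P' / θ ^ P'.card * θ ^ P'.card := by
              field_simp
          _ ≤ cnt C A x P / θ ^ P.card * θ ^ P'.card := by gcongr
          _ ≤ cnt C A x P / θ ^ P.card * θ ^ D := by
              refine mul_le_mul_of_nonneg_left ?_ hmm
              exact pow_le_pow_of_le_one h0.le h1 (by omega)
      have h3 : 0 ≤ cnt C A x P / θ ^ P.card * ((1 - θ) *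
          ∑ j ∈ Ch C M A x, GG C M D θ s (nA (C j) A) (nx (C j) A x)) :=
        mul_nonneg hmm (mul_nonneg (by linarith) hS)
      rw [mul_add]
      linarith [hε0 A]

end

end Vale.Agent.P336.H742
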